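import Crest.Agent.X212.Frb23.Shear

/-! Large slopes: Farey induction on peg-free pairs. -/

namespace Frb23

open Module

/-- slopes from which one can shear upwards for ever -/
def Ok (p : ℤ) (q : ℕ) : Prop := 0 < q ∧ IsCoprime p q ∧ (0 < p ∨ 2 ≤ q)

/-- peg-free pairs: the intervals `[j/q, (j+1)/q)` and `[j'/q', (j'+1)/q')` overlap -/
def PF (q q' : ℕ) (j j' : ℤ) : Prop := 1 - (q : ℤ) ≤ q * j' - q' * j ∧ q * j' - q' * j ≤ q' - 1

theorem Ok.add {p : ℤ} {q : ℕ} (h : Ok p q) : Ok (p + q) q :=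
  ⟨h.1, by simpa using h.2.1.add_mul_left_left 1, h.2.2.imp (fun _ => by omega) id⟩

theorem Ok.ne {p : ℤ} {q : ℕ} (h : Ok p q) : p ≠ 0 := by
  rintro rfl
  have h1 := isCoprime_zero_left.1 h.2.1
  rcases Int.isUnit_iff.1 h1 with e | e <;> rcases h.2.2 with h2 | h2 <;> omega

theorem PF.floor {q q' : ℕ} {j j' : ℤ} (hq : 0 < q) (hq' : 0 < q') (h : PF q q' j j') :
    j / q = j' / q' := by
  obtain ⟨h1, h2⟩ := h
  have a1 := Int.emod_add_mul_ediv j q
  have a2 := Int.emod_nonneg j (show (q : ℤ) ≠ 0 by omega)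
  have a3 := Int.emod_lt_of_pos j (show (0 : ℤ) < q by omega)
  have b1 := Int.emod_add_mul_ediv j' q'
  have b2 := Int.emod_nonneg j' (show (q' : ℤ) ≠ 0 by omega)
  have b3 := Int.emod_lt_of_pos j' (show (0 : ℤ) < q' by omega)
  generalize j / q = i at *
  generalize j' / q' = i' at *
  generalize j % q = a at *
  generalize j' % q' = b at *
  subst a1 b1
  have hq0 : (0 : ℤ) < q := by omega
  have hq1 : (0 : ℤ) < q' := by omega
  rcases lt_trichotomy i i' with h | h | h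
  · have c1 : (q : ℤ) * q' * 1 ≤ q * q' * (i' - i) := by gcongr; omega
    have c2 : (q' : ℤ) * a ≤ q' * (q - 1) := by gcongr; omega
    nlinarith [mul_nonneg hq0.le b2]
  · exact h
  · have c1 : (q : ℤ) * q' * 1 ≤ q * q' * (i - i') := by gcongr; omega
    have c2 : (q : ℤ) * b ≤ q * (q' - 1) := by gcongr; omega
    nlinarith [mul_nonneg hq1.le a2]

/-- the positions of height at most `g` -/
noncomputable def Rg (g q : ℕ) : Finset ℤ := Finset.Ico (-(g * q : ℤ)) ((g + 1) * q)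

theorem mem_Rg {g q : ℕ} (hq : 0 < q) {j : ℤ} : j ∈ Rg g q ↔ -(g : ℤ) ≤ j / q ∧ j / q ≤ g := by
  have hq0 : (0 : ℤ) < q := by omega
  rw [Rg, Finset.mem_Ico, Int.le_ediv_iff_mul_le hq0, ← Int.lt_add_one_iff (a := j / q),
    Int.ediv_lt_iff_lt_mul hq0, neg_mul]

theorem sum_Rg {M : Type*} [AddCommMonoid M] {g q : ℕ} (hq : 0 < q) (f : ℤ → M) :
    ∑ j ∈ Rg g q, f j = ∑ i ∈ Finset.Icc (-(g : ℤ)) g, ∑ b ∈ Finset.range q, f (i * q + b) := by
  have hq0 : (0 : ℤ) < q := by omega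
  rw [← Finset.sum_product']
  refine Finset.sum_nbij' (fun j => (j / q, (j % q).toNat)) (fun x => x.1 * q + x.2) ?_ ?_ ?_ ?_ ?_
  · intro j hj
    have a2 := Int.emod_nonneg j hq0.ne'
    have a3 := Int.emod_lt_of_pos j hq0
    simp only [Finset.mem_product, Finset.mem_Icc, Finset.mem_range]
    exact ⟨(mem_Rg hq).1 hj, by omega⟩
  · intro x hx
    simp only [Finset.mem_product, Finset.mem_Icc, Finset.mem_range] at hx
    rw [mem_Rg hq, add_comm, Int.add_mul_ediv_right _ _ hq0.ne',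
      Int.ediv_eq_zero_of_lt (by omega) (by omega), zero_add]
    exact hx.1
  · intro j _
    have a2 := Int.emod_nonneg j hq0.ne'
    simp only
    rw [Int.toNat_of_nonneg a2, mul_comm, add_comm]; exact Int.emod_add_mul_ediv j q
  · intro x hx
    simp only [Finset.mem_product, Finset.mem_Icc, Finset.mem_range] at hx
    ext
    · simp only
      rw [add_comm, Int.add_mul_ediv_right _ _ hq0.ne',
        Int.ediv_eq_zero_of_lt (by omega) (by omega), zero_add]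
    · simp only
      rw [add_comm, Int.add_mul_emod_self_right, Int.emod_eq_of_lt (by omega) (by omega)]
      simp
  · intro j _
    have a2 := Int.emod_nonneg j hq0.ne'
    simp only
    rw [Int.toNat_of_nonneg a2, mul_comm, add_comm, Int.emod_add_mul_ediv]

theorem div_add {q : ℕ} {b : ℕ} (hb : b < q) (i : ℤ) : (i * q + b) / q = i := by
  rw [add_comm, Int.add_mul_ediv_right _ _ (by omega),
    Int.ediv_eq_zero_of_lt (by omega) (by omega), zero_add]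

theorem injOn_of_lt {p : ℤ} {S : Finset ℤ} (h : ∀ a ∈ S, ∀ b ∈ S, b - a < p) :
    Set.InjOn (fun j : ℤ => (j : ZMod p.natAbs)) S := by
  intro a ha b hb e
  have h1 := (cast_eq_iff p a b).1 e
  have h2 := Int.eq_zero_of_abs_lt_dvd h1 (abs_lt.2 ⟨by have := h b hb a ha; omega, h a ha b hb⟩)
  omega

theorem injOn_Rg {p : ℤ} {g q : ℕ} (h : (2 * g + 1) * (q : ℤ) ≤ p) :
    Set.InjOn (fun j : ℤ => (j : ZMod p.natAbs)) (Rg g q) :=
  injOn_of_lt fun a ha b hb => by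
    rw [Rg, Finset.mem_Ico] at ha hb
    nlinarith [ha.1, hb.2]

variable {F : Type*} [Field F] {H : ℤ → ℕ → Type*} [∀ p q, AddCommGroup (H p q)]
  [∀ p q, Module F (H p q)]

/-- what is used about the reduced groups -/
structure Rd (G : ∀ p q, LG F (H p q) p.natAbs) (T : ∀ (p : ℤ) (q : ℕ), ℤ → H p q →ₗ[F] H (p + q) q)
    (E : ∀ p q p' q', ℤ → ℤ → H p q →ₗ[F] H p' q') (Ψ : ℤ → ℕ → ℤ → ℚ) (R : ℕ) : Prop where
  two : (2 : F) = 0
  homT : ∀ p q, Ok p q → ∀ j : ℤ,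
    LG.Hom (G p q) (G (p + q) q) (T p q j) j j (Ψ (p + q) q j - Ψ p q j)
  finT : ∀ p q, Ok p q → (Function.support (T p q)).Finite
  bijT : ∀ p q, Ok p q → Function.Bijective (∑ᶠ j, T p q j : H p q →ₗ[F] H (p + q) q)
  swap : ∀ p q, Ok p q → ∀ a d, T (p + q) q (a + (p + q) * d) ∘ₗ T p q a
    = T (p + q) q (a - q * d) ∘ₗ T p q (a + p * d)
  int : ∀ n : ℤ, 0 < n → ∀ j, ∃ c : F, c ≠ 0 ∧ E n 1 (n + (1 : ℕ)) 1 j j = c • T n 1 j
  homE : ∀ (p : ℤ) (q : ℕ) (p' : ℤ) (q' : ℕ), 0 < p → 0 < q → 0 < q' → p' * q = p * q' + 1 →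
    ∀ j j', PF q q' j j' → LG.Hom (G p q) (G p' q') (E p q p' q' j j') j j' (Ψ p' q' j' - Ψ p q j)
  blow : ∀ (p : ℤ) (q : ℕ) (p' : ℤ) (q' : ℕ), 0 < p → 0 < q → 0 < q' → p' * q = p * q' + 1 →
    ∀ j j' m, m = j + j' ∨ m = j + j' + 1 → ∃ c : F, c ≠ 0 ∧
      E (p + p') (q + q') p' q' m j' ∘ₗ E p q (p + p') (q + q') j m = c • E p q p' q' j j'
  dim : ∀ (p : ℤ) (q : ℕ), 0 < p → 0 < q → IsCoprime p q → finrank F (H p q) = q * R

/-- numerators along a chain of shears -/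
def pp (p : ℤ) (q : ℕ) : ℕ → ℤ
  | 0 => p
  | i + 1 => pp p q i + q

theorem pp_eq (p : ℤ) (q : ℕ) : ∀ i, pp p q i = p + i * q
  | 0 => by simp [pp]
  | i + 1 => by rw [pp, pp_eq p q i]; push_cast; ring

theorem Ok.pp {p : ℤ} {q : ℕ} (h : Ok p q) : ∀ i, Ok (pp p q i) q
  | 0 => h
  | i + 1 => (h.pp i).add

variable {G : ∀ p q, LG F (H p q) p.natAbs} {T : ∀ (p : ℤ) (q : ℕ), ℤ → H p q →ₗ[F] H (p + q) q}
  {E : ∀ p q p' q', ℤ → ℤ → H p q →ₗ[F] H p' q'} {Ψ : ℤ → ℕ → ℤ → ℚ} {R : ℕ}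

theorem Rd.ch (h : Rd G T E Ψ R) {p : ℤ} {q : ℕ} (ho : Ok p q) (N : ℕ) :
    Ch (H := fun i => H (pp p q i) q) N (pp p q) q (fun i => G (pp p q i) q)
      (fun i => T (pp p q i) q) (fun i => Ψ (pp p q i) q) where
  two := h.two
  step := fun _ => rfl
  ne := fun i _ => (ho.pp (i + 1)).ne
  hom := fun i _ => h.homT _ _ (ho.pp i)
  fin := fun i _ => h.finT _ _ (ho.pp i)
  bij := fun i _ => h.bijT _ _ (ho.pp i)
  swap := fun i _ => h.swap _ _ (ho.pp i)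

variable [∀ p q, FiniteDimensional F (H p q)]

theorem Bij.smul {V V' : Type*} [AddCommGroup V] [Module F V] [AddCommGroup V'] [Module F V']
    {f : V →ₗ[F] V'} {A : Submodule F V} {B : Submodule F V'} (h : Bij f A B) {c : F}
    (hc : c ≠ 0) : Bij (c • f) A B :=
  ⟨fun x hx e => h.inj x hx ((smul_eq_zero.1 e).resolve_left hc),
    by rw [Submodule.map_smul _ _ _ hc, h.map]⟩

theorem ok_one : Ok 1 1 := ⟨one_pos, isCoprime_one_left, Or.inl one_pos⟩

/-- large integers -/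
theorem Rd.base (h : Rd G T E Ψ R) {g : ℕ} (hg : ∀ a, a ∉ Rg g 1 → T 1 1 a = 0) {n : ℤ}
    (hn : 2 * g + 2 ≤ n) :
    (∀ j ∈ Rg g 1, Bij (E n 1 (n + (1 : ℕ)) 1 j j) ((G n 1).L j) ((G (n + (1 : ℕ)) 1).L j)) ∧
      ∑ j ∈ Rg g 1, finrank F ((G n 1).L j) = R := by
  obtain ⟨i, hi⟩ : ∃ i : ℕ, n = pp 1 1 i := ⟨(n - 1).toNat, by rw [pp_eq]; push_cast; omega⟩
  subst hi
  have hi : 2 * g + 1 ≤ i := by rw [pp_eq] at hn; push_cast at hn; omega
  have hk : i < 2 ^ i := Nat.lt_two_pow_self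
  have inj : ∀ l, i ≤ l → Set.InjOn (fun j : ℤ => (j : ZMod (pp 1 1 l).natAbs)) (Rg g 1) :=
    fun l hl => injOn_Rg (by rw [pp_eq]; push_cast; omega)
  have c := h.ch ok_one (2 ^ i)
  refine ⟨fun j hj => ?_, ?_⟩
  · obtain ⟨a, ha, e⟩ := h.int (pp 1 1 i) (by omega) j
    rw [e]
    exact (c.diag (Rg g 1) hg (inj _ hk.le) (by omega) hk (inj _ le_rfl) (inj _ (by omega))
      hj).smul ha
  · rw [(c.lev (Rg g 1) hg (inj _ hk.le) (by omega) hk.le (inj _ le_rfl)).2,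
      h.dim _ 1 (by omega) one_pos (by simpa using isCoprime_one_right), one_mul]

/-- the vertex property -/
def Vx (G : ∀ p q, LG F (H p q) p.natAbs) (Ψ : ℤ → ℕ → ℤ → ℚ) (g : ℕ) (r : ℤ → ℕ)
    (Pc : ℤ → ℚ → ℕ) (p : ℤ) (q : ℕ) : Prop :=
  ∀ j ∈ Rg g q, finrank F ((G p q).L j) = r (j / q) ∧ ∀ d, (G p q).c j (d + Ψ p q j) = Pc (j / q) d

/-- the edge property -/
def Eg (G : ∀ p q, LG F (H p q) p.natAbs) (E : ∀ p q p' q', ℤ → ℤ → H p q →ₗ[F] H p' q') (g : ℕ)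
    (p : ℤ) (q : ℕ) (p' : ℤ) (q' : ℕ) : Prop :=
  ∀ j j', PF q q' j j' → j ∈ Rg g q → Bij (E p q p' q' j j') ((G p q).L j) ((G p' q').L j')

variable {g : ℕ} {r : ℤ → ℕ} {Pc : ℤ → ℚ → ℕ}

theorem sum_r {q : ℕ} (hq : 0 < q) (hr : ∑ i ∈ Finset.Icc (-(g : ℤ)) g, r i = R) :
    ∑ j ∈ Rg g q, r (j / q) = q * R := by
  rw [sum_Rg hq, ← hr, Finset.mul_sum]
  refine Finset.sum_congr rfl fun i _ => ?_
  rw [Finset.sum_congr rfl fun b hb => by rw [div_add (Finset.mem_range.1 hb)]]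
  simp

/-- the mediant -/
theorem Rd.med (h : Rd G T E Ψ R) (hr : ∑ i ∈ Finset.Icc (-(g : ℤ)) g, r i = R)
    {p p' : ℤ} {q q' : ℕ} (hq : 0 < q) (hq' : 0 < q') (hd : p' * q = p * q' + 1)
    (hp : (2 * g + 1) * (q : ℤ) ≤ p) (hv : Vx G Ψ g r Pc p q) (he : Eg G E g p q p' q') :
    Vx G Ψ g r Pc (p + p') (q + q') ∧ Eg G E g p q (p + p') (q + q') ∧
      Eg G E g (p + p') (q + q') p' q' := by
  have hq0 : (0 : ℤ) < q := by omega
  have hq1 : (0 : ℤ) < q' := by omega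
  have hp0 : 0 < p := lt_of_lt_of_le (by positivity) hp
  have hp' : (2 * g + 1) * (q' : ℤ) ≤ p' := by
    by_contra hc
    have c1 : p' * q ≤ (2 * g + 1) * q' * q := by gcongr; omega
    have c2 : (2 * g + 1) * (q : ℤ) * q' ≤ p * q' := by gcongr
    nlinarith
  have hm : (2 * g + 1) * ((q + q' : ℕ) : ℤ) ≤ p + p' := by push_cast; linarith
  have hm0 : 0 < p + p' := lt_of_lt_of_le (by positivity) hm
  have d1 : (p + p') * q = p * ((q + q' : ℕ) : ℤ) + 1 := by push_cast; linarith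
  have d2 : p' * ((q + q' : ℕ) : ℤ) = (p + p') * q' + 1 := by push_cast; linarith
  have pf1 : ∀ j j' m, PF q q' j j' → m = j + j' ∨ m = j + j' + 1 →
      PF q (q + q') j m ∧ PF (q + q') q' m j' := by
    rintro j j' m ⟨a, b⟩ (rfl | rfl) <;> refine ⟨⟨?_, ?_⟩, ?_, ?_⟩ <;> push_cast <;> linarith
  have key : ∀ j j' m, PF q q' j j' → m = j + j' ∨ m = j + j' + 1 → j ∈ Rg g q →
      finrank F ((G p q).L j) ≤ finrank F ((G (p + p') (q + q')).L m) ∧
      (finrank F ((G (p + p') (q + q')).L m) ≤ finrank F ((G p q).L j) →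
        Bij (E p q (p + p') (q + q') j m) ((G p q).L j) ((G (p + p') (q + q')).L m) ∧
        Bij (E (p + p') (q + q') p' q' m j') ((G (p + p') (q + q')).L m) ((G p' q').L j')) := by
    intro j j' m hpf hm hj
    obtain ⟨c, hc, e⟩ := h.blow p q p' q' hp0 hq hq' hd j j' m hm
    exact Bij.split hc e (he j j' hpf hj)
      ((h.homE p q _ _ hp0 hq (by omega) d1 j m (pf1 j j' m hpf hm).1).map_le _)
  have ex1 : ∀ j m, PF q (q + q') j m → ∃ j', PF q q' j j' ∧ (m = j + j' ∨ m = j + j' + 1) := by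
    rintro j m ⟨a, b⟩
    push_cast at a b
    by_cases hc : (q : ℤ) * m - (q + q') * j ≤ q' - 1
    · exact ⟨m - j, ⟨by linarith, by linarith⟩, Or.inl (by ring)⟩
    · exact ⟨m - j - 1, ⟨by linarith, by linarith⟩, Or.inr (by ring)⟩
  have ex2 : ∀ m j', PF (q + q') q' m j' → ∃ j, PF q q' j j' ∧ (m = j + j' ∨ m = j + j' + 1) := by
    rintro m j' ⟨a, b⟩
    push_cast at a b
    by_cases hc : 1 - (q : ℤ) ≤ (q + q') * j' - q' * m
    · exact ⟨m - j', ⟨by linarith, by linarith⟩, Or.inl (by ring)⟩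
    · exact ⟨m - j' - 1, ⟨by linarith, by linarith⟩, Or.inr (by ring)⟩
  have ex0 : ∀ m : ℤ, ∃ j, PF q (q + q') j m := by
    intro m
    have a1 := Int.emod_add_mul_ediv (q * m) ((q + q' : ℕ) : ℤ)
    have a2 := Int.emod_nonneg (q * m) (show ((q + q' : ℕ) : ℤ) ≠ 0 by omega)
    have a3 := Int.emod_lt_of_pos (q * m) (show (0 : ℤ) < ((q + q' : ℕ) : ℤ) by omega)
    exact ⟨q * m / ((q + q' : ℕ) : ℤ), by linarith, by linarith⟩
  have rg : ∀ j m, PF q (q + q') j m → (j ∈ Rg g q ↔ m ∈ Rg g (q + q')) := fun j m hpf => by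
    rw [mem_Rg hq, mem_Rg (by omega), hpf.floor hq (by omega)]
  have low : ∀ m ∈ Rg g (q + q'),
      r (m / ((q + q' : ℕ) : ℤ)) ≤ finrank F ((G (p + p') (q + q')).L m) := by
    intro m hm
    obtain ⟨j, hj⟩ := ex0 m
    obtain ⟨j', h1, h2⟩ := ex1 j m hj
    rw [← hj.floor hq (by omega), ← (hv j ((rg j m hj).2 hm)).1]
    exact (key j j' m h1 h2 ((rg j m hj).2 hm)).1
  have hco : IsCoprime (p + p') ((q + q' : ℕ) : ℤ) := ⟨q, -p, by linarith⟩
  obtain ⟨eq, -⟩ := eq_of_sum (G (p + p') (q + q')).L_ind (Rg g (q + q')) _ (injOn_Rg hm) _ low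
    (by rw [sum_r (by omega) hr, h.dim _ _ hm0 (by omega) hco])
  have key2 : ∀ j j' m, PF q q' j j' → m = j + j' ∨ m = j + j' + 1 → j ∈ Rg g q →
      Bij (E p q (p + p') (q + q') j m) ((G p q).L j) ((G (p + p') (q + q')).L m) ∧
        Bij (E (p + p') (q + q') p' q' m j') ((G (p + p') (q + q')).L m) ((G p' q').L j') := by
    intro j j' m hpf hm hj
    have h1 := (pf1 j j' m hpf hm).1
    refine (key j j' m hpf hm hj).2 (le_of_eq ?_)
    rw [eq m ((rg j m h1).1 hj), (hv j hj).1, h1.floor hq (by omega)]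
  have e1 : Eg G E g p q (p + p') (q + q') := fun j m hpf hj => by
    obtain ⟨j', h1, h2⟩ := ex1 j m hpf
    exact (key2 j j' m h1 h2 hj).1
  refine ⟨fun m hm => ⟨eq m hm, fun d => ?_⟩, e1, fun m j' hpf hm => ?_⟩
  · obtain ⟨j, hj⟩ := ex0 m
    have hj' := (rg j m hj).2 hm
    rw [← hj.floor hq (by omega), ← (hv j hj').2 d,
      (h.homE p q _ _ hp0 hq (by omega) d1 j m hj).c_eq (e1 j m hj hj')]
    congr 1; ring
  · obtain ⟨j, h1, h2⟩ := ex2 m j' hpf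
    exact (key2 j j' m h1 h2 ((rg j m (pf1 j j' m h1 h2).1).2 hm)).2

/-- Farey induction -/
theorem Rd.edge (h : Rd G T E Ψ R) (hr : ∑ i ∈ Finset.Icc (-(g : ℤ)) g, r i = R)
    (hb : ∀ n : ℤ, 2 * g + 2 ≤ n → Vx G Ψ g r Pc n 1 ∧ Eg G E g n 1 (n + 1) 1) (k : ℕ) :
    ∀ (p p' : ℤ) (q q' : ℕ), q + q' ≤ k → 0 < q → 0 < q' → p' * q = p * q' + 1 →
      (2 * g + 2) * (q : ℤ) ≤ p → Vx G Ψ g r Pc p q ∧ Eg G E g p q p' q' := by
  induction k with
  | zero => intro p p' q q' h1 h2; omega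
  | succ k ih =>
    intro p p' q q' hk hq hq' hd hp
    rcases lt_trichotomy q q' with hl | hl | hl
    · obtain ⟨b, rfl⟩ : ∃ b, q' = q + b := ⟨q' - q, by omega⟩
      obtain ⟨a, rfl⟩ : ∃ a, p' = p + a := ⟨p' - p, by ring⟩
      have hd' : a * q = p * b + 1 := by push_cast at hd; linarith
      obtain ⟨v, e⟩ := ih p a q b (by omega) hq (by omega) hd' hp
      exact ⟨v, (h.med hr hq (by omega) hd' (by nlinarith) v e).2.1⟩
    · subst hl
      have h1 : (q : ℤ) ∣ 1 := ⟨p' - p, by linarith⟩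
      obtain rfl : q = 1 := by exact_mod_cast Int.eq_one_of_dvd_one (by omega) h1
      obtain rfl : p' = p + 1 := by simpa using hd
      exact hb p (by simpa using hp)
    · obtain ⟨b, rfl⟩ : ∃ b, q = b + q' := ⟨q - q', by omega⟩
      obtain ⟨a, rfl⟩ : ∃ a, p = a + p' := ⟨p - p', by ring⟩
      have hd' : p' * b = a * q' + 1 := by push_cast at hd; linarith
      have ha : (2 * g + 2) * (b : ℤ) ≤ a := by
        by_contra hc
        push_cast at hp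
        have c0 : (0 : ℤ) < b := by omega
        have c1 : a * (b + q') ≤ ((2 * g + 2) * b - 1) * (b + q') := by gcongr; omega
        have c2 : (2 * g + 2) * ((b : ℤ) + q') * b ≤ (a + p') * b := by gcongr
        nlinarith
      obtain ⟨v, e⟩ := ih a p' b q' (by omega) (by omega) hq' hd' ha
      obtain ⟨v', -, e'⟩ := h.med hr (by omega) hq' hd' (by nlinarith) v e
      exact ⟨v', e'⟩

end Frb23
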