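import Crest.Agent.X212.Lens8.D
import Crest.Agent.X212.Lens17.Gap
import Crest.Agent.X212.Frb23.Farey

/-! The degree function of the diagonal classes, on both sides. -/

namespace Frb23

open Crest.Agent.X212

theorem d_eq (q : ℕ) : ∀ p : ℕ, 0 < p → Nat.Coprime p q → ∀ j, Lens17.d p q j = Lens8.dL p q j := by
  induction q using Nat.strong_induction_on with
  | _ q ih =>
    intro p hp hc j
    rcases q.eq_zero_or_pos with rfl | hq
    · obtain rfl : p = 1 := by simpa using hc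
      simp
    have hc' : Nat.Coprime q (p % q) := by
      rw [Nat.Coprime, Nat.gcd_comm, ← Nat.gcd_rec]; exact hc.symm
    have h0 : (0 : ℤ) ≤ j % p := Int.emod_nonneg _ (by omega)
    have h1 : j % p < p := Int.emod_lt_of_pos _ (by omega)
    have := Lens8.dL_rec hp hq hc h0 (by omega)
    rw [Lens17.d_pos p hq, ih _ (Nat.mod_lt _ hq) q hq hc', Lens8.dL_mod, Lens17.Q,
      ← Lens8.dL_emod p q j]
    linarith

theorem Psi_shear {p q : ℕ} (hp : 0 < p) (hq : 0 < q) (hc : Nat.Coprime p q) (j : ℤ) :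
    Lens17.Psi (p + q) q j - Lens17.Psi p q j
      = (1 - (2 * (j : ℚ) + 1 - q) ^ 2 / (p * (p + q))) / 4 := by
  have h1 : (p : ℚ) ≠ 0 := by positivity
  have h2 : (q : ℚ) ≠ 0 := by positivity
  have h3 : (p : ℚ) + q ≠ 0 := by positivity
  rw [Lens17.Psi_eq hp hq hc, Lens17.Psi_eq (by omega) hq (by simpa using hc), Lens17.Phi,
    Lens17.Phi, Lens17.d_add hq hc.symm, Lens17.Q, Lens17.Q]
  push_cast; field_simp; ring

theorem d_anti {a b : ℕ} (ha : 0 < a) (hb : 0 < b) (hc : Nat.Coprime a b) (j : ℤ) :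
    Lens17.d (a + b) b j + Lens17.d (a + b) a (j + a) = 0 := by
  have hq : (0 : ℤ) < ((a + b : ℕ) : ℤ) := by omega
  have h0 := Int.emod_nonneg j hq.ne'
  have h1 := Int.emod_lt_of_pos j hq
  rw [← Lens17.d_emod, Lens17.d_congr (a + b) a (j := j + a) (j' := j % ((a + b : ℕ) : ℤ) + a)
    (by simp)]
  generalize j % ((a + b : ℕ) : ℤ) = i at *
  have c1 : Nat.Coprime (a + b) b := by simpa using hc
  have c2 : Nat.Coprime (a + b) a := by simpa using hc.symm
  have e1 := Lens17.Phi_eq_d (p := a + b) (by omega) hb c1 h0 (by omega)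
  have e2 := Lens17.Phi_eq_d (p := a + b) (j := i + a) (by omega) ha c2 (by omega) (by omega)
  have e3 := Lens17.Phi_eq_d ha hb hc h0 (by omega)
  have e4 : Lens17.d a (a + b) (i + a) = Lens17.d a b i := by
    rw [add_comm a b, Lens17.d_add ha hc, Lens17.d_add_self]
  rw [← e1, ← e2, Lens17.Phi, Lens17.Phi, Lens17.d_add hb hc.symm, e4, ← e3, Lens17.Phi,
    Lens17.Q, Lens17.Q, Lens17.Q]
  have h1 : (a : ℚ) ≠ 0 := by positivity
  have h2 : (b : ℚ) ≠ 0 := by positivity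
  have h3 : (a : ℚ) + b ≠ 0 := by positivity
  push_cast; field_simp; ring

theorem Psi_cross {a b : ℕ} (ha : 0 < a) (hb : 0 < b) (hc : Nat.Coprime a b) (j : ℤ) :
    Lens17.Psi b (a + b) j - (1 - Lens17.Psi a (a + b) j)
      = ((2 * (j : ℚ) + 1 - (a + b)) ^ 2 / (a * b) - 5) / 4 := by
  have c1 : Nat.Coprime (a + b) b := by simpa using hc
  have c2 : Nat.Coprime (a + b) a := by simpa using hc.symm
  have e1 := d_anti ha hb hc j
  have e2 := Lens17.shift (p := a + b) (by omega) c2 j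
  rw [Lens17.cast_emod] at e2
  have e3 : Lens17.d (a + b) b j = -((2 * (j - ((a + b : ℕ) : ℚ) * ((j / ((a + b : ℕ) : ℤ) : ℤ) : ℚ))
      + 1 - ((a + b : ℕ) : ℚ)) / ((a + b : ℕ) : ℚ)) - Lens17.d (a + b) a j := by linarith
  rw [Lens17.Psi_eq hb (by omega) c1.symm, Lens17.Psi_eq ha (by omega) c2.symm, Lens17.Phi,
    Lens17.Phi, e3, Lens17.Q, Lens17.Q]
  generalize ((j / ((a + b : ℕ) : ℤ) : ℤ) : ℚ) = t
  have h1 : (a : ℚ) ≠ 0 := by positivity
  have h2 : (b : ℚ) ≠ 0 := by positivity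
  have h3 : (a : ℚ) + b ≠ 0 := by positivity
  push_cast; field_simp; ring

/-- the degree function -/
def Ps (p : ℤ) (q : ℕ) (j : ℤ) : ℚ :=
  if 0 < p then Lens17.Psi p.natAbs q j else 1 - Lens17.Psi p.natAbs q j

theorem cop_nat {p : ℤ} {q : ℕ} (h : IsCoprime p q) : Nat.Coprime p.natAbs q := by
  have := Int.isCoprime_iff_gcd_eq_one.1 h
  simpa [Int.gcd] using this

theorem Ps_neg {p : ℤ} {q : ℕ} (ho : Ok p q) (h : 0 < p ∨ p + q < 0) (j : ℤ) :
    Ps (p + q) q j - Ps p q j = (1 - ((2 * j + 1 - q : ℤ) : ℚ) ^ 2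
      / ((p.natAbs : ℚ) * ((p + q).natAbs : ℚ))) / 4 := by
  rcases h with h | h
  · rw [Ps, Ps, if_pos h, if_pos (by omega), show (p + q).natAbs = p.natAbs + q by omega,
      Psi_shear (by omega) ho.1 (cop_nat ho.2.1)]
    push_cast; ring
  · have := Psi_shear (p := (p + q).natAbs) (by omega) ho.1 (cop_nat ho.add.2.1) j
    rw [Ps, Ps, if_neg (by omega), if_neg (by omega), show p.natAbs = (p + q).natAbs + q by omega]
    push_cast at this ⊢
    rw [mul_comm (_ + (q : ℚ))]; linarith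

theorem Ps_pos {p : ℤ} {q : ℕ} (ho : Ok p q) (h : p < 0) (h' : 0 < p + q) (j : ℤ) :
    Ps (p + q) q j - Ps p q j = (((2 * j + 1 - q : ℤ) : ℚ) ^ 2
      / ((p.natAbs : ℚ) * ((p + q).natAbs : ℚ)) - 5) / 4 := by
  have hc := cop_nat ho.2.1
  rw [Ps, Ps, if_pos h', if_neg (by omega)]
  have e : q = p.natAbs + (p + q).natAbs := by omega
  have ha : 0 < p.natAbs := by omega
  have hb : 0 < (p + q).natAbs := by omega
  generalize (p + q).natAbs = b at *
  generalize p.natAbs = a at *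
  subst e
  rw [Psi_cross ha hb (by simpa using hc)]
  push_cast; ring

theorem Ps_edge {p p' : ℤ} {q q' : ℕ} (hp : 0 < p) (hq : 0 < q) (hq' : 0 < q')
    (hd : p' * q = p * q' + 1) {j j' : ℤ} (h : PF q q' j j') :
    0 < p' ∧ Ps p' q' j' - Ps p q j
      = (1 - (((2 * j + 1 - q) * p' - (2 * j' + 1 - q') * p : ℤ) : ℚ) ^ 2
        / ((p.natAbs : ℚ) * (p'.natAbs : ℚ))) / 4 := by
  have hp' : 0 < p' := by
    by_contra hc
    have c1 : p' * q ≤ 0 := mul_nonpos_of_nonpos_of_nonneg (by omega) (by omega)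
    have c2 : 0 ≤ p * q' := by positivity
    omega
  refine ⟨hp', ?_⟩
  lift p to ℕ using hp.le
  lift p' to ℕ using hp'.le
  have e : Lens17.Edge p q p' q' := ⟨by omega, by rw [mul_comm]; exact_mod_cast hd⟩
  obtain ⟨k, h1, h2⟩ := e.Psi_gap hq' j j'
  obtain rfl : k = 0 := h2.2 (by
    rw [← lt_sub_iff_add_lt, abs_lt]
    obtain ⟨a, b⟩ := h
    constructor <;> linarith)
  rw [Ps, Ps, if_pos hp, if_pos hp', Int.natAbs_natCast, Int.natAbs_natCast]
  rw [Lens17.deg, Lens17.kap] at h1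
  push_cast at h1 ⊢
  rw [← neg_sq]
  convert sub_eq_zero.1 h1 using 5
  ring

end Frb23
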