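import Crest.Agent.X212.Frb23.Farey

/-! The labelled graded character of the reduced group of every slope; its moments. -/

namespace Frb23

open Module

variable {F : Type*} [Field F] {H : ℤ → ℕ → Type*} [∀ p q, AddCommGroup (H p q)]
  [∀ p q, Module F (H p q)] [∀ p q, FiniteDimensional F (H p q)]
  {G : ∀ p q, LG F (H p q) p.natAbs} {T : ∀ (p : ℤ) (q : ℕ), ℤ → H p q →ₗ[F] H (p + q) q}
  {E : ∀ p q p' q', ℤ → ℤ → H p q →ₗ[F] H p' q'} {Ψ : ℤ → ℕ → ℤ → ℚ} {R : ℕ}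

theorem LG.fin {V : Type*} [AddCommGroup V] [Module F V] [FiniteDimensional F V] {n : ℕ}
    (G : LG F V n) : {i | G.W i ≠ ⊥}.Finite := by
  have := G.ind.fintypeNeBotOfFiniteDimensional
  exact Set.finite_coe_iff.1 (Finite.of_fintype {i // G.W i ≠ ⊥})

theorem LG.fin_c {V : Type*} [AddCommGroup V] [Module F V] [FiniteDimensional F V] {n : ℕ}
    (G : LG F V n) (s : ZMod n) (a : ℚ) : (Function.support fun d => G.c s (d + a)).Finite := by
  refine (G.fin.preimage (f := fun d : ℚ => (s, d + a))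
    (fun a _ b _ e => by simpa using e)).subset fun d hd => ?_
  intro e
  exact hd (by simp only [LG.c]; rw [show G.W (s, d + a) = ⊥ from e, finrank_bot])

theorem LG.sum_c {V : Type*} [AddCommGroup V] [Module F V] [FiniteDimensional F V] {n : ℕ}
    (G : LG F V n) (s : ZMod n) (a : ℚ) (Dg : Finset ℚ)
    (h : ∀ d, G.c s (d + a) ≠ 0 → d ∈ Dg) : ∑ d ∈ Dg, G.c s (d + a) = finrank F (G.L s) := by
  have e : G.L s = ⨆ d ∈ Dg, G.W (s, d + a) := by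
    refine le_antisymm (iSup_le fun d => ?_) (iSup₂_le fun d _ => G.W_le _ _)
    by_cases hd : G.c s (d - a + a) = 0
    · rw [sub_add_cancel, LG.c, Submodule.finrank_eq_zero] at hd
      rw [hd]; exact bot_le
    · exact le_iSup₂_of_le (f := fun (d : ℚ) (_ : d ∈ Dg) => G.W (s, d + a)) (d - a) (h _ hd)
        (by rw [sub_add_cancel])
  rw [e, finrank_biSup G.ind Dg (fun d => (s, d + a)) fun a _ b _ e => by simpa using e]
  rfl

theorem exists_up {p : ℤ} {q : ℕ} (hq : 0 < q) (hc : IsCoprime p q) :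
    ∃ (p' : ℤ) (q' : ℕ), 0 < q' ∧ p' * q = p * q' + 1 := by
  obtain ⟨a, b, e⟩ := hc
  have h1 : (0 : ℤ) < -a + (|a| + 1) * q := by
    have : (|a| + 1) * 1 ≤ (|a| + 1) * (q : ℤ) := by gcongr; omega
    linarith [le_abs_self a]
  refine ⟨b + (|a| + 1) * p, (-a + (|a| + 1) * q).toNat, by omega, ?_⟩
  rw [Int.toNat_of_nonneg h1.le]; linarith

/-- large slopes -/
theorem Rd.large (h : Rd G T E Ψ R) : ∃ (g : ℕ) (r : ℤ → ℕ) (Pc : ℤ → ℚ → ℕ) (Dg : Finset ℚ),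
    ∑ i ∈ Finset.Icc (-(g : ℤ)) g, r i = R ∧
    (∀ i ∈ Finset.Icc (-(g : ℤ)) g, ∑ d ∈ Dg, Pc i d = r i ∧ ∀ d, d ∉ Dg → Pc i d = 0) ∧
    ∀ (p : ℤ) (q : ℕ), 0 < q → IsCoprime p q → (2 * g + 2) * (q : ℤ) ≤ p →
      Vx G Ψ g r Pc p q ∧ ∀ t : ZMod p.natAbs, (∀ j ∈ Rg g q, (j : ZMod p.natAbs) ≠ t) →
        (G p q).L t = ⊥ := by
  classical
  obtain ⟨g, hg⟩ : ∃ g : ℕ, ∀ a, a ∉ Rg g 1 → T 1 1 a = 0 := by
    obtain ⟨b, hb⟩ := ((h.finT 1 1 ok_one).image fun a : ℤ => a.natAbs).bddAbove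
    refine ⟨b, fun a ha => ?_⟩
    by_contra hc
    have := hb ⟨a, hc, rfl⟩
    exact ha (by rw [mem_Rg one_pos]; simp only at this; push_cast; omega)
  let n0 : ℤ := 2 * g + 2
  let r : ℤ → ℕ := fun i => finrank F ((G n0 1).L i)
  let Pc : ℤ → ℚ → ℕ := fun i d => (G n0 1).c i (d + Ψ n0 1 i)
  have e1 : Rg g 1 = Finset.Icc (-(g : ℤ)) g := by
    ext j; rw [mem_Rg one_pos, Finset.mem_Icc]; simp
  have hr : ∑ i ∈ Finset.Icc (-(g : ℤ)) g, r i = R := e1 ▸ (h.base hg (le_refl n0)).2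
  have hE : ∀ n : ℤ, 2 * g + 2 ≤ n → Eg G E g n 1 (n + 1) 1 := by
    rintro n hn j j' ⟨a, b⟩ hj
    obtain rfl : j = j' := by push_cast at a b; omega
    exact (h.base hg hn).1 j hj
  have hV : ∀ n : ℤ, 2 * g + 2 ≤ n → Vx G Ψ g r Pc n 1 := by
    intro n hn
    induction n, hn using Int.leInduction with
    | base => exact fun j _ => by simp [r, Pc, n0]
    | succ n hn ih =>
      intro j hj
      have hpf : PF 1 1 j j := ⟨by simp, by simp⟩
      have hb := hE n hn j j hpf hj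
      refine ⟨hb.fr.symm.trans (ih j hj).1, fun d => ?_⟩
      rw [← (ih j hj).2 d, (h.homE n 1 (n + 1) 1 (by omega) one_pos one_pos (by simp) j j hpf).c_eq hb]
      congr 1; ring
  have hf : (⋃ i ∈ (Finset.Icc (-(g : ℤ)) g : Set ℤ), Function.support (Pc i)).Finite :=
    (Finset.finite_toSet _).biUnion fun i _ => (G n0 1).fin_c _ _
  refine ⟨g, r, Pc, hf.toFinset, hr, fun i hi => ?_, fun p q hq hc hp => ?_⟩
  · have h1 : ∀ d, Pc i d ≠ 0 → d ∈ hf.toFinset := fun d hd =>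
      hf.mem_toFinset.2 (Set.mem_biUnion (Finset.mem_coe.2 hi) hd)
    exact ⟨(G n0 1).sum_c _ _ _ h1, fun d hd => by_contra fun hc => hd (h1 d hc)⟩
  · obtain ⟨p', q', hq', hd⟩ := exists_up hq hc
    have hv := (h.edge hr (fun n hn => ⟨hV n hn, hE n hn⟩) _ p p' q q' le_rfl hq hq' hd hp).1
    have hq0 : (0 : ℤ) < q := by omega
    refine ⟨hv, (eq_of_sum (G p q).L_ind (Rg g q) _ (injOn_Rg (by nlinarith)) (fun j => r (j / q))
      (fun j hj => (hv j hj).1.ge) ?_).2⟩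
    rw [sum_r hq hr, h.dim p q (lt_of_lt_of_le (by positivity) hp) hq hc]

/-- the character of every slope -/
theorem Rd.char (h : Rd G T E Ψ R) : ∃ (g : ℕ) (r : ℤ → ℕ) (Pc : ℤ → ℚ → ℕ) (Dg : Finset ℚ),
    ∑ i ∈ Finset.Icc (-(g : ℤ)) g, r i = R ∧
    (∀ i ∈ Finset.Icc (-(g : ℤ)) g, ∑ d ∈ Dg, Pc i d = r i ∧ ∀ d, d ∉ Dg → Pc i d = 0) ∧
    ∀ (p : ℤ) (q : ℕ), Ok p q → ∀ (s : ZMod p.natAbs) (d : ℚ), (G p q).c s d =
      ∑ j ∈ (Rg g q).filter (fun j : ℤ => (j : ZMod p.natAbs) = s), Pc (j / q) (d - Ψ p q j) := by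
  classical
  obtain ⟨g, r, Pc, Dg, h1, h2, h3⟩ := h.large
  refine ⟨g, r, Pc, Dg, h1, h2, fun p q ho s d => ?_⟩
  let S : Finset ℤ := Rg g q ∪ (h.finT p q ho).toFinset
  obtain ⟨b, hb⟩ := (S.finite_toSet.image fun a : ℤ => a.natAbs).bddAbove
  have hb' : ∀ a ∈ S, a.natAbs ≤ b := fun a ha => hb ⟨a, ha, rfl⟩
  let k : ℕ := p.natAbs + 2 * b + 1 + (2 * g + 2)
  have hq : (1 : ℤ) ≤ q := by have := ho.1; omega
  have hk : (k : ℤ) ≤ (2 ^ k : ℕ) := by exact_mod_cast (Nat.lt_two_pow_self (n := k)).le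
  have hk2 : ((p.natAbs + 2 * b + 1 : ℕ) : ℤ) + (2 * g + 2) * q ≤ (2 ^ k : ℕ) * (q : ℤ) := by
    have c1 : (k : ℤ) * q ≤ (2 ^ k : ℕ) * (q : ℤ) := by gcongr
    have c2 : ((p.natAbs + 2 * b + 1 : ℕ) : ℤ) * 1 ≤ ((p.natAbs + 2 * b + 1 : ℕ) : ℤ) * q := by gcongr
    simp only [k] at c1
    push_cast at c1 c2 ⊢
    linarith
  have hP : ((2 * b + 1 : ℕ) : ℤ) + (2 * g + 2) * q ≤ pp p q (2 ^ k) := by
    rw [pp_eq]; omega
  have hg0 : (0 : ℤ) ≤ (2 * g + 2) * q := by positivity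
  have hi : Set.InjOn (fun j : ℤ => (j : ZMod (pp p q (2 ^ k)).natAbs)) S :=
    injOn_of_lt fun a ha c hc => by have := hb' a ha; have := hb' c hc; omega
  have hS : ∀ a, a ∉ S → T p q a = 0 := fun a ha => by_contra fun hc =>
    ha (Finset.mem_union_right _ ((Set.Finite.mem_toFinset _).2 hc))
  have h4 := (h.ch ho (2 ^ k)).c_sum S hS hi s d
  obtain ⟨h5, h6⟩ := h3 (pp p q (2 ^ k)) q ho.1 (ho.pp _).2.1 (by omega)
  refine Eq.trans h4 ?_
  symm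
  refine Finset.sum_subset_zero_on_sdiff
    (Finset.filter_subset_filter _ Finset.subset_union_left) (fun j hj => ?_) fun j hj => ?_
  · obtain ⟨h7, h8⟩ := Finset.mem_sdiff.1 hj
    obtain ⟨h9, h10⟩ := Finset.mem_filter.1 h7
    refine LG.c_zero _ (h6 _ fun a ha e => h8 (Finset.mem_filter.2 ⟨?_, h10⟩)) _
    exact hi (Finset.mem_union_left _ ha) h9 e ▸ ha
  · rw [← (h5 j (Finset.mem_filter.1 hj).1).2]
    congr 1
    change _ = d + (Ψ (pp p q (2 ^ k)) q j - Ψ p q j)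
    ring

/-- `∑ c(s,d) w(s,d)` -/
noncomputable def LG.mom {V : Type*} [AddCommGroup V] [Module F V] {n : ℕ} (G : LG F V n)
    (w : ZMod n → ℚ → ℚ) : ℚ := ∑ᶠ x : ZMod n × ℚ, (G.c x.1 x.2 : ℚ) * w x.1 x.2

theorem LG.mom_eq {V V' : Type*} [AddCommGroup V] [Module F V] [AddCommGroup V'] [Module F V']
    {n n' : ℕ} (G : LG F V n) (G' : LG F V' n') (φ : ZMod n ≃ ZMod n')
    (h : ∀ s d, G.c s d = G'.c (φ s) d) (w : ZMod n' → ℚ → ℚ) :
    G.mom (fun s => w (φ s)) = G'.mom w := by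
  rw [LG.mom, LG.mom, ← finsum_comp_equiv (φ.prodCongr (Equiv.refl ℚ))]
  simp [h]

/-- moments of the character -/
theorem Rd.mom (h : Rd G T E Ψ R) : ∃ (g : ℕ) (r : ℤ → ℕ) (Γ : ℤ → ℚ),
    ∑ i ∈ Finset.Icc (-(g : ℤ)) g, r i = R ∧
    ∀ (p : ℤ) (q : ℕ), Ok p q → ∀ (a : ℚ) (u : ZMod p.natAbs → ℚ),
      (G p q).mom (fun s d => a * d + u s) = ∑ i ∈ Finset.Icc (-(g : ℤ)) g,
        (q * a * Γ i + r i * ∑ b ∈ Finset.range q,
          (a * Ψ p q (i * q + b) + u ((i * q + b : ℤ) : ZMod p.natAbs))) := by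
  classical
  obtain ⟨g, r, Pc, Dg, h1, h2, h3⟩ := h.char
  refine ⟨g, r, fun i => ∑ e ∈ Dg, (Pc i e : ℚ) * e, h1, fun p q ho a u => ?_⟩
  let φ : ℤ × ℚ → ZMod p.natAbs × ℚ := fun y => (y.1, y.2 + Ψ p q y.1)
  let S := Rg g q ×ˢ Dg
  have h4 : ∀ x : ZMod p.natAbs × ℚ, ((G p q).c x.1 x.2 : ℚ)
      = ∑ y ∈ S.filter (fun y => φ y = x), (Pc (y.1 / q) y.2 : ℚ) := by
    intro x
    rw [h3 p q ho, Nat.cast_sum, Finset.sum_filter, Finset.sum_filter, Finset.sum_product]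
    refine Finset.sum_congr rfl fun j hj => ?_
    have hj' := Finset.mem_Icc.2 ((mem_Rg ho.1).1 hj)
    by_cases e : (j : ZMod p.natAbs) = x.1
    · rw [if_pos e, Finset.sum_eq_single (x.2 - Ψ p q j)]
      · rw [if_pos (Prod.ext e (by simp [φ]))]
      · intro b _ hb
        exact if_neg fun e' => hb (by rw [← e']; simp [φ])
      · intro hb
        rw [(h2 _ hj').2 _ hb]; simp
    · rw [if_neg e]
      exact (Finset.sum_eq_zero fun b _ => if_neg fun e' => e (by rw [← e'])).symm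
  rw [LG.mom, finsum_eq_sum_of_support_subset (s := S.image φ) _ fun x hx => by
    by_contra hc
    refine hx ?_
    simp only
    rw [h4, Finset.sum_eq_zero fun y hy => (hc (Finset.mem_coe.2 (Finset.mem_image.2
      ⟨y, (Finset.mem_filter.1 hy).1, (Finset.mem_filter.1 hy).2⟩))).elim, zero_mul]]
  have h5 : ∑ x ∈ S.image φ, ((G p q).c x.1 x.2 : ℚ) * (a * x.2 + u x.1)
      = ∑ y ∈ S, (Pc (y.1 / q) y.2 : ℚ) * (a * (φ y).2 + u (φ y).1) := by
    rw [← Finset.sum_fiberwise_of_maps_to (g := φ) fun y hy => Finset.mem_image_of_mem φ hy]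
    refine Finset.sum_congr rfl fun x _ => ?_
    rw [h4, Finset.sum_mul]
    exact Finset.sum_congr rfl fun y hy => by rw [(Finset.mem_filter.1 hy).2]
  rw [h5, Finset.sum_product, sum_Rg ho.1]
  refine Finset.sum_congr rfl fun i hi => ?_
  have e0 : ∀ x : ℚ, q * a * x = ∑ _b ∈ Finset.range q, a * x := fun x => by simp [mul_assoc]
  rw [← (h2 i hi).1, e0, Finset.mul_sum (Finset.range q), ← Finset.sum_add_distrib]
  refine Finset.sum_congr rfl fun b hb => ?_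
  simp only [φ]
  rw [div_add (Finset.mem_range.1 hb), Nat.cast_sum, Finset.sum_mul, Finset.mul_sum,
    ← Finset.sum_add_distrib]
  exact Finset.sum_congr rfl fun e _ => by ring

/-- the two sums for a pair of slopes with the same denominator and isomorphic groups -/
theorem Rd.two_sums (h : Rd G T E Ψ R) : ∃ (g : ℕ) (r : ℤ → ℕ),
    ∑ i ∈ Finset.Icc (-(g : ℤ)) g, r i = R ∧
    ∀ (p p' : ℤ) (q : ℕ), Ok p q → Ok p' q → ∀ φ : ZMod p.natAbs ≃ ZMod p'.natAbs,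
      (∀ s d, (G p q).c s d = (G p' q).c (φ s) d) →
      ∑ i ∈ Finset.Icc (-(g : ℤ)) g, (r i : ℚ) * ∑ b ∈ Finset.range q,
        (Ψ p q (i * q + b) - Ψ p' q (i * q + b)) = 0 ∧
      ∀ u : ZMod p'.natAbs → ℚ, ∑ i ∈ Finset.Icc (-(g : ℤ)) g, (r i : ℚ) * ∑ b ∈ Finset.range q,
        (u (φ ((i * q + b : ℤ) : ZMod p.natAbs)) - u ((i * q + b : ℤ) : ZMod p'.natAbs)) = 0 := by
  obtain ⟨g, r, Γ, h1, h2⟩ := h.mom
  refine ⟨g, r, h1, fun p p' q ho ho' φ hφ => ?_⟩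
  have key : ∀ (a : ℚ) (u : ZMod p'.natAbs → ℚ),
      ∑ i ∈ Finset.Icc (-(g : ℤ)) g, (r i : ℚ) * ∑ b ∈ Finset.range q,
        ((a * Ψ p q (i * q + b) + u (φ ((i * q + b : ℤ) : ZMod p.natAbs)))
          - (a * Ψ p' q (i * q + b) + u ((i * q + b : ℤ) : ZMod p'.natAbs))) = 0 := by
    intro a u
    have e := LG.mom_eq (G p q) (G p' q) φ hφ (fun s d => a * d + u s)
    rw [h2 p' q ho' a u, h2 p q ho a fun s => u (φ s), ← sub_eq_zero, ← Finset.sum_sub_distrib] at e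
    rw [← e]
    refine Finset.sum_congr rfl fun i _ => ?_
    rw [Finset.sum_sub_distrib]; ring
  exact ⟨by simpa using key 1 0, fun u => by simpa using key 0 u⟩

end Frb23
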