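import Crest.Agent.X212.Bor5.Props
import Crest.Agent.X212.Sw87.Win
import Crest.Agent.X212.Frb23.Main
import Crest.Agent.X212.Frb23.Ari

/-! The leaf KILL of layer S. -/

noncomputable section

namespace Frb23

open Crest.Agent.X212 Bor5 Module

theorem rd_ind (X : Ob) : iSupIndep fun i : ZMod X.P × ℚ => X.rd i.1 i.2 := by
  intro i
  let C : Submodule K X.H := ⨆ (j : ZMod X.P × ℚ) (_ : j ≠ i), X.gr j.1 j.2
  have h1 : (⨆ (j : ZMod X.P × ℚ) (_ : j ≠ i), X.rd j.1 j.2) = C.map X.T.mkQ := by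
    simp only [C, Ob.rd, Submodule.map_iSup]
  have h2 : X.T ≤ (X.T ⊓ X.gr i.1 i.2) ⊔ C := by
    refine Submodule.span_le.2 ?_
    rintro _ ⟨s, x, rfl⟩
    by_cases e : (s, x) = i
    · subst e
      exact Submodule.mem_sup_left ⟨Submodule.subset_span ⟨s, x, rfl⟩, X.e_mem s x⟩
    · exact Submodule.mem_sup_right (Submodule.mem_iSup_of_mem (s, x)
        (Submodule.mem_iSup_of_mem e (X.e_mem s x)))
  rw [h1, Submodule.disjoint_def]
  rintro _ ⟨a, ha, rfl⟩ ⟨b, hb, e⟩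
  have h3 : a - b ∈ X.T := (Submodule.Quotient.eq _).1 e.symm
  obtain ⟨t, ht, c, hc, e'⟩ := Submodule.mem_sup.1 (h2 h3)
  have h4 : a - t = 0 := Submodule.disjoint_def.1 (X.ind i) _ (sub_mem ha ht.2) (by
    rw [show a - t = b + c by rw [eq_add_of_sub_eq e'.symm]; abel]
    exact add_mem hb hc)
  rw [sub_eq_zero.1 h4]
  exact (Submodule.Quotient.mk_eq_zero _).2 ht.1

/-- the reduced part as a labelled graded space -/
def lg (X : Ob) : LG K X.Red X.P where
  W i := X.rd i.1 i.2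
  ind := rd_ind X
  top := by
    simp only [Ob.rd]
    rw [← Submodule.map_iSup, X.top, Submodule.map_top, Submodule.range_mkQ]

open Classical in
/-- everything in one piece -/
def triv (V : Type) [AddCommGroup V] [Module K V] (n : ℕ) : LG K V n where
  W i := if i = 0 then ⊤ else ⊥
  ind := fun i => by
    by_cases h : i = 0
    · refine disjoint_bot_right.mono_right (iSup₂_le fun j hj => ?_)
      exact (if_neg (h ▸ hj)).le
    · simp only [if_neg h]; exact disjoint_bot_left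
  top := top_le_iff.1 (le_iSup_of_le 0 (by simp))

/-- the same with a prescribed order -/
def lgn (X : Ob) (n : ℕ) : LG K X.Red n := if h : X.P = n then h ▸ lg X else triv _ n

theorem lgn_self (X : Ob) : lgn X X.P = lg X := dif_pos rfl

variable {A B C : Ob}

open Classical in
/-- the induced map -/
def ind (g : A.H →ₗ[K] B.H) : A.Red →ₗ[K] B.Red :=
  if h : A.T ≤ B.T.comap g then A.T.mapQ B.T g h else 0

theorem ind_mk {g : A.H →ₗ[K] B.H} (h : A.T ≤ B.T.comap g) (y : A.H) :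
    ind g (A.T.mkQ y) = B.T.mkQ (g y) := by
  rw [ind, dif_pos h]; rfl

theorem ind_comp {f : A.H →ₗ[K] B.H} {g : B.H →ₗ[K] C.H} (h : A.T ≤ B.T.comap f)
    (h' : B.T ≤ C.T.comap g) : ind g ∘ₗ ind f = ind (g ∘ₗ f) := by
  refine LinearMap.ext fun x => ?_
  obtain ⟨y, rfl⟩ := A.T.mkQ_surjective x
  rw [LinearMap.comp_apply, ind_mk h, ind_mk h', ind_mk (g := g ∘ₗ f) fun y hy => h' (h hy)]
  rfl

theorem ind_zero : ind (0 : A.H →ₗ[K] B.H) = 0 := by
  refine LinearMap.ext fun x => ?_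
  obtain ⟨y, rfl⟩ := A.T.mkQ_surjective x
  rw [ind_mk fun y _ => by simp]; simp

/-- towers go to towers -/
def Tw (f : Fam A B) : Prop := ∀ κ, A.T ≤ B.T.comap (f.F κ)

theorem tw_neg (hF : FroStmt) {f : Fam A B} (h : f.Neg) : Tw f := by
  intro κ
  refine Submodule.span_le.2 ?_
  rintro _ ⟨s, x, rfl⟩
  change f.F κ _ ∈ B.T
  by_cases h1 : Fam.Ch A B κ
  · by_cases h2 : s = f.s κ
    · rw [h2, ((hF A B f).1 h κ h1).2]
      exact Submodule.subset_span ⟨_, _, rfl⟩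
    · rw [f.off κ s x _ h2 (A.e_mem s x)]; exact zero_mem _
  · rw [h.par κ h1]; exact zero_mem _

theorem tw_pos (hF : FroStmt) {f : Fam A B} (h : f.Pos) : Tw f := fun κ y hy => by
  change f.F κ _ ∈ B.T
  rw [(hF A B f).2 h κ y hy]; exact zero_mem _

theorem Tw.hom {f : Fam A B} (h : Tw f) {n n' : ℕ} (hn : A.P = n) (hn' : B.P = n') (κ j j' : ℤ)
    (hj : f.s κ = j ∧ f.t κ = j') {δ : ℚ} (hd : δ = f.dg κ) :
    LG.Hom (lgn A n) (lgn B n') (ind (f.F κ)) j j' δ := by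
  subst hn hn' hd
  rw [lgn_self, lgn_self, ← hj.1, ← hj.2]
  constructor
  · rintro d _ ⟨y, hy, rfl⟩
    rw [ind_mk (h κ)]
    exact ⟨_, f.map κ d y hy, rfl⟩
  · rintro t d ht _ ⟨y, hy, rfl⟩
    rw [ind_mk (h κ), f.off κ t d y ht hy, map_zero]

theorem Tw.fin [FiniteDimensional K A.Red] {f : Fam A B} (h : Tw f) :
    (Function.support fun κ => ind (f.F κ)).Finite := by
  let b := Module.finBasis K A.Red
  choose y hy using fun i => A.T.mkQ_surjective (b i)
  refine (Set.finite_iUnion fun i => f.fin (y i)).subset fun κ hκ => ?_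
  by_contra hc
  refine hκ (b.ext fun i => ?_)
  have : f.F κ (y i) = 0 := by_contra fun e => hc (Set.mem_iUnion.2 ⟨i, e⟩)
  rw [← hy, ind_mk (h κ), this]; simp

theorem Tw.bij [FiniteDimensional K A.Red] {f : Fam A B} (h : Tw f) (hb : Fam.RBij f.tot)
    (k : ℤ → ℤ) (hk : Function.Injective k) (h0 : ∀ κ, κ ∉ Set.range k → f.F κ = 0) :
    Function.Bijective (∑ᶠ j, ind (f.F (k j)) : A.Red →ₗ[K] B.Red) := by
  classical
  obtain ⟨φ, h1, h2⟩ := hb
  have e1 : ∑ᶠ j, ind (f.F (k j)) = ∑ᶠ κ, ind (f.F κ) := by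
    rw [← finsum_mem_range (f := fun κ => ind (f.F κ)) hk, ← finsum_mem_univ (fun κ => ind (f.F κ))]
    refine finsum_mem_inter_support_eq' _ _ _ fun κ hκ => ⟨fun _ => trivial, fun _ => ?_⟩
    by_contra hc
    exact hκ (by simp only; rw [h0 κ hc, ind_zero])
  have e2 : ∑ᶠ κ, ind (f.F κ) = φ := by
    refine LinearMap.ext fun x => ?_
    obtain ⟨y, rfl⟩ := A.T.mkQ_surjective x
    rw [h1 y, finsum_eq_sum_of_support_subset (s := h.fin.toFinset ∪ (f.fin y).toFinset) _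
      (by simp), LinearMap.sum_apply]
    change _ = B.T.mkQ (∑ᶠ κ, f.F κ y)
    rw [finsum_eq_sum_of_support_subset (s := h.fin.toFinset ∪ (f.fin y).toFinset) _
      (by simp), map_sum]
    exact Finset.sum_congr rfl fun κ _ => ind_mk (h κ) y
  rw [e1, e2]; exact h2

theorem Ok.sl {p : ℤ} {q : ℕ} (h : Ok p q) : Sl p q := ⟨h.ne, by omega, h.2.1⟩

theorem ed_of {p p' : ℤ} {q q' : ℕ} (hp : 0 < p) (hq : 0 < q) (hd : p' * q = p * q' + 1) :
    Ed p q p' q' := by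
  refine ⟨mul_pos hp ?_, by omega, by omega, by linarith⟩
  by_contra hc
  have c1 : p' * q ≤ 0 := mul_nonpos_of_nonpos_of_nonneg (by omega) (by omega)
  have c2 : 0 ≤ p * q' := by positivity
  omega

theorem sl_of {p q p' q' : ℤ} (h : Ed p q p' q') : Sl p q ∧ Sl p' q' := by
  obtain ⟨h1, h2, h3, h4⟩ := h
  exact ⟨⟨by rintro rfl; simp at h1, h2, ⟨-q', p', by linarith⟩⟩,
    ⟨by rintro rfl; simp at h1, h3, ⟨q, -p, by linarith⟩⟩⟩

theorem shear (S : Sys) {p : ℤ} {q : ℕ} (ho : Ok p q) :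
    (∀ j : ℤ, (S.F p q (p + q) q).s (2 * j + 1 - q) = j ∧ (S.F p q (p + q) q).t (2 * j + 1 - q) = j) ∧
    ((0 < p ∨ p + q < 0) ∧ (S.F p q (p + q) q).Neg ∨
      (p < 0 ∧ 0 < p + q) ∧ (S.F p q (p + q) q).Pos) := by
  rcases lt_or_ge q 2 with hq | hq
  · obtain rfl : q = 1 := by have := ho.1; omega
    have hp : 0 < p := ho.2.2.resolve_right (by omega)
    have e : Ed p (1 : ℕ) (p + (1 : ℕ)) (1 : ℕ) := ed_of hp one_pos (by push_cast; ring)
    refine ⟨fun j => ?_, Or.inl ⟨Or.inl hp, S.neg _ _ _ _ e⟩⟩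
    have := S.lab _ _ _ _ e j j
    rwa [show kap p (1 : ℕ) (p + (1 : ℕ)) (1 : ℕ) j j = 2 * j + 1 - (1 : ℕ) by
      rw [kap]; push_cast; ring] at this
  · refine ⟨S.labT p q _ ho.sl (by omega) rfl, ?_⟩
    obtain ⟨w⟩ := S.shr p q _ ho.sl (by omega) rfl
    have h1 := ho.ne
    have h2 := ho.add.ne
    by_cases h3 : 0 < p
    · exact Or.inl ⟨Or.inl h3, (w.pp h3).nf⟩
    by_cases h4 : p + q < 0
    · exact Or.inl ⟨Or.inr h4, (w.nn h4).ng⟩
    · exact Or.inr ⟨⟨by omega, by omega⟩, (w.np (by omega) (by omega)).ph⟩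

theorem par {p q κ : ℤ} (h : IsCoprime p q) (hκ : Even (κ + (p.natAbs : ℤ) * ((p + q).natAbs : ℤ))) :
    ∃ j, 2 * j + 1 - q = κ := by
  have h1 : Even (κ + p * (p + q)) := by
    rw [Int.even_add, Int.even_mul, Int.even_coe_nat, Int.even_coe_nat, Int.natAbs_even,
      Int.natAbs_even, ← Int.even_mul, ← Int.even_add] at hκ
    exact hκ
  have h2 : ¬ (Even p ∧ Even q) := fun ⟨a, b⟩ => by
    have := h.isUnit_of_dvd' a.two_dvd b.two_dvd
    rcases Int.isUnit_iff.1 this with e | e <;> omega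
  have h3 : Even (κ + q - 1) := by
    simp only [parity_simps] at h1 ⊢
    tauto
  obtain ⟨j, hj⟩ := h3
  exact ⟨j, by omega⟩

theorem rd_of (hF : FroStmt) (hV : ValStmt) (S : Sys) {R : ℕ} (hR : S.Good R) :
    Rd (H := fun p q => (S.Y p q).Red) (fun p q => lgn (S.Y p q) p.natAbs)
      (fun p q j => ind ((S.F p q (p + q) q).F (2 * j + 1 - q)))
      (fun p q p' q' j j' => ind ((S.F p q p' q').F (kap p q p' q' j j'))) Ps R := by
  have fd : ∀ X : Ob, FiniteDimensional K X.Red := fun X => (hV X X.d).1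
  have tw : ∀ p q, Ok p q → Tw (S.F p q (p + q) q) := fun p q ho =>
    (shear S ho).2.elim (fun h => tw_neg hF h.2) fun h => tw_pos hF h.2
  have inj : ∀ q : ℕ, Function.Injective fun j : ℤ => 2 * j + 1 - q := fun q a b e => by
    simp only at e; omega
  refine ⟨rfl, fun p q ho j => ?_, fun p q ho => ?_, fun p q ho => ?_, fun p q ho a d => ?_,
    fun n hn j => ⟨1, one_ne_zero, ?_⟩, fun p q p' q' hp hq hq' hd j j' hpf => ?_,
    fun p q p' q' hp hq hq' hd j j' m hm => ⟨1, one_ne_zero, ?_⟩, fun p q hp hq hc => ?_⟩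
  · refine (tw p q ho).hom (S.hP _ _ ho.sl) (S.hP _ _ ho.add.sl) _ j j ((shear S ho).1 j) ?_
    rcases (shear S ho).2 with h | h
    · rw [h.2.dg, S.hP _ _ ho.sl, S.hP _ _ ho.add.sl, Ps_neg ho h.1]
    · rw [h.2.dg, S.hP _ _ ho.sl, S.hP _ _ ho.add.sl, Ps_pos ho h.1.1 h.1.2]
  · exact (tw p q ho).fin.preimage (inj q).injOn
  · refine (tw p q ho).bij (hR.bij p q _ ho.sl (by have := ho.1; omega) rfl ho.add.ne) _ (inj q)
      fun κ hκ => ?_
    have hl : (S.F p q (p + q) q).Lat := (shear S ho).2.elim (fun h => h.2.toLat) fun h => h.2.toLat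
    refine hl.par κ fun hc => hκ (par ho.2.1 ?_)
    rwa [Fam.Ch, S.hP _ _ ho.sl, S.hP _ _ ho.add.sl] at hc
  · rw [ind_comp (tw p q ho _) (tw _ q ho.add _), ind_comp (tw p q ho _) (tw _ q ho.add _),
      S.swap p q _ _ ho.sl (by have := ho.1; omega) rfl rfl ho.add.ne ho.add.add.ne]
  · rw [one_smul, show kap n (1 : ℕ) (n + (1 : ℕ)) (1 : ℕ) j j = 2 * j + 1 - (1 : ℕ) by
      rw [kap]; push_cast; ring]
  · have e := ed_of hp hq hd
    refine (tw_neg hF (S.neg _ _ _ _ e)).hom (S.hP _ _ (sl_of e).1) (S.hP _ _ (sl_of e).2) _ j j'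
      (S.lab _ _ _ _ e j j') ?_
    rw [(S.neg _ _ _ _ e).dg, S.hP _ _ (sl_of e).1, S.hP _ _ (sl_of e).2,
      (Ps_edge hp hq hq' hd hpf).2, kap]
  · have e := ed_of hp hq hd
    have t := S.tri p q p' q' (p + p') ((q + q' : ℕ) : ℤ) e rfl (by push_cast; rfl)
    obtain ⟨c, hc, e1, e2⟩ : ∃ c : ℤ, (c = 1 ∨ c = -1) ∧
        kap p q (p + p') ((q + q' : ℕ) : ℤ) j m = kap p q p' q' j j' - c * p ∧
        kap (p + p') ((q + q' : ℕ) : ℤ) p' q' m j' = kap p q p' q' j j' + c * p' := by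
      rcases hm with rfl | rfl
      · exact ⟨-1, Or.inr rfl, by simp only [kap]; push_cast; ring, by simp only [kap]; push_cast; ring⟩
      · exact ⟨1, Or.inl rfl, by simp only [kap]; push_cast; ring, by simp only [kap]; push_cast; ring⟩
    rw [one_smul, ind_comp (tw_neg hF t.nf _) (tw_neg hF t.ng _), e1, e2,
      S.bu1 p q p' q' _ _ e rfl (by push_cast; rfl) _ c hc]
  · exact_mod_cast hR.dim p q ⟨hp.ne', by omega, hc⟩

theorem iso_of (hI : IsoStmt) {X Y : Ob} (i : Iso X Y) {n n' : ℕ} (hn : X.P = n) (hn' : Y.P = n') :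
    ∃ φ : ZMod n ≃ ZMod n', (∀ s d, (lgn X n).c s d = (lgn Y n').c (φ s) d) ∧
      ∃ u : ZMod n' → ℚ, (∀ j : ℤ, u (φ j) = X.d j) ∧ ∀ j : ℤ, u j = Y.d j := by
  subst hn hn'
  rw [lgn_self, lgn_self]
  exact ⟨i.φ, fun s d => ((hI X Y i).2.2 s d).symm, Y.d, fun j => (hI X Y i).1 j, fun _ => rfl⟩

theorem D_pos {p q : ℕ} (hp : 0 < p) (hc : Nat.Coprime p q) (j : ℤ) :
    Bor5.D p q j = Lens17.d p q j ∧ Bor5.D (-p) q j = -Lens17.d p q j := by
  have e : ((q : ℤ) % p).toNat = q % p := by rw [← Int.natCast_mod, Int.toNat_natCast]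
  rw [Bor5.D, Bor5.D, if_pos (by omega), if_neg (by omega), neg_neg, Int.emod_neg, e,
    Int.toNat_natCast, Lens8.dL_mod, d_eq q p hp hc]
  exact ⟨rfl, rfl⟩

/-- KILL -/
theorem kill (hF : FroStmt) (hV : ValStmt) (hI : IsoStmt) : KillStmt := by
  intro S R hR p q hs hp hq i h0
  have fd : ∀ X : Ob, FiniteDimensional K X.Red := fun X => (hV X X.d).1
  lift p to ℕ using by omega
  lift q to ℕ using by omega
  have ho : Ok p q := ⟨by omega, hs.2.2, Or.inr (by omega)⟩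
  have ho' : Ok (-p) q := ⟨by omega, hs.2.2.neg_left, Or.inr (by omega)⟩
  have hc : Nat.Coprime p q := by simpa using cop_nat hs.2.2
  have hD := D_pos (by omega) hc
  obtain ⟨g, r, h1, h2⟩ := (rd_of hF hV S hR).two_sums
  obtain ⟨φ, h3, u, h4, h5⟩ := iso_of hI i (S.hP _ _ hs) (S.hP _ _ hs.neg)
  obtain ⟨hA, hC⟩ := h2 p (-p) q ho ho' φ h3
  have d1 : ∀ j : ℤ, (S.Y p q).d j = Lens17.d p q j := fun j => by
    rw [hR.del _ _ hs, Sys.D, Dc, (hD _).1, ZMod.val_intCast, S.hP _ _ hs, Int.natAbs_natCast,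
      Lens17.d_emod]
  have d2 : ∀ j : ℤ, (S.Y (-p) q).d j = -Lens17.d p q j := fun j => by
    rw [hR.del _ _ hs.neg, Sys.D, Dc, (hD _).2, ZMod.val_intCast, S.hP _ _ hs.neg, Int.natAbs_neg,
      Int.natAbs_natCast, Lens17.d_emod]
  have key := Sw87.kill17 (p := p) (q := q) (by omega) (by omega) hc (by omega)
    (by rw [← h0, Sd, Int.natAbs_natCast]; exact Finset.sum_congr rfl fun j _ => (hD j).1.symm)
    (Finset.Icc (-(g : ℤ)) g) r
    (by
      rw [← hA]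
      refine Finset.sum_congr rfl fun a _ => congrArg _ (Finset.sum_congr rfl fun b _ => ?_)
      rw [Ps, Ps, if_pos (by omega), if_neg (by omega), Int.natAbs_neg, Int.natAbs_natCast]
      ring)
    (by
      have := hC u
      simp only [h4, h5, d1, d2, sub_neg_eq_add, ← two_mul, ← Finset.mul_sum, mul_left_comm _ (2 : ℚ)]
        at this
      simpa using this)
  rw [← h1]
  exact Finset.sum_eq_zero key

end Frb23
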