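import Mathlib

/-! Labelled graded spaces: pieces `W (label, degree)`, homogeneous maps, transport of the
dimensions of the pieces along bijections. -/

namespace Frb23

open Module

section lat
variable {F V : Type*} [Field F] [AddCommGroup V] [Module F V] {I : Type*}

theorem eq_of_le_ind {f g : I → Submodule F V} (hg : iSupIndep g) (hle : ∀ i, f i ≤ g i)
    (hs : iSup g ≤ iSup f) (i : I) : f i = g i := by
  have h1 : Disjoint (g i) (⨆ (j) (_ : j ≠ i), f j) :=
    (hg i).mono_right (iSup₂_mono fun j _ => hle j)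
  have h2 : g i ≤ f i ⊔ ⨆ (j) (_ : j ≠ i), f j := by
    rw [← iSup_split_single f i]; exact (le_iSup g i).trans hs
  refine le_antisymm (hle i) ?_
  calc g i = (f i ⊔ ⨆ (j) (_ : j ≠ i), f j) ⊓ g i := (inf_eq_right.2 h2).symm
    _ = f i ⊔ ((⨆ (j) (_ : j ≠ i), f j) ⊓ g i) := sup_inf_assoc_of_le _ (hle i)
    _ = f i := by rw [h1.symm.eq_bot, sup_bot_eq]
    _ ≤ f i := le_rfl

theorem ind_biSup {W : I → Submodule F V} (hW : iSupIndep W) {X : Type*} (A : X → Set I)
    (hA : ∀ x y, x ≠ y → Disjoint (A x) (A y)) : iSupIndep fun x => ⨆ i ∈ A x, W i := by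
  intro x
  have h1 : Disjoint (A x) (⋃ y, ⋃ (_ : y ≠ x), A y) := by
    simp only [Set.disjoint_iUnion_right]
    exact fun y hy => hA x y hy.symm
  refine (hW.disjoint_biSup_biSup h1).mono_right ?_
  refine iSup₂_le fun y hy => iSup₂_le fun i hi => ?_
  exact le_iSup₂_of_le (f := fun i (_ : i ∈ ⋃ y, ⋃ (_ : y ≠ x), A y) => W i) i
    (Set.mem_iUnion₂.2 ⟨y, hy, hi⟩) le_rfl

theorem finrank_biSup [FiniteDimensional F V] {W : I → Submodule F V} (hW : iSupIndep W)
    {X : Type*} (s : Finset X) (φ : X → I) (hφ : Set.InjOn φ s) :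
    finrank F (⨆ x ∈ s, W (φ x) : Submodule F V) = ∑ x ∈ s, finrank F (W (φ x)) := by
  classical
  induction s using Finset.induction_on with
  | empty => simp
  | insert a s ha ih =>
    rw [Finset.iSup_insert, Finset.sum_insert ha, ← ih (hφ.mono (by simp))]
    have hd : Disjoint (W (φ a)) (⨆ x ∈ s, W (φ x)) := by
      refine (hW (φ a)).mono_right (iSup₂_le fun x hx => ?_)
      refine le_iSup₂_of_le (f := fun j (_ : j ≠ φ a) => W j) (φ x) ?_ le_rfl
      intro e
      have := hφ (by simp [hx]) (by simp) e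
      exact ha (this ▸ hx)
    have := Submodule.finrank_sup_add_finrank_inf_eq (W (φ a)) (⨆ x ∈ s, W (φ x))
    rw [hd.eq_bot, finrank_bot, add_zero] at this
    exact this

theorem sum_le [FiniteDimensional F V] {W : I → Submodule F V} (hW : iSupIndep W)
    {X : Type*} (s : Finset X) (φ : X → I) (hφ : Set.InjOn φ s) :
    ∑ x ∈ s, finrank F (W (φ x)) ≤ finrank F V := by
  rw [← finrank_biSup hW s φ hφ]; exact Submodule.finrank_le _

/-- lower bounds with the right total are equalities, and the other pieces vanish -/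
theorem eq_of_sum [FiniteDimensional F V] {W : I → Submodule F V} (hW : iSupIndep W)
    {X : Type*} (s : Finset X) (φ : X → I) (hφ : Set.InjOn φ s) (r : X → ℕ)
    (hr : ∀ x ∈ s, r x ≤ finrank F (W (φ x))) (ht : finrank F V ≤ ∑ x ∈ s, r x) :
    (∀ x ∈ s, finrank F (W (φ x)) = r x) ∧ ∀ i, (∀ x ∈ s, φ x ≠ i) → W i = ⊥ := by
  have h1 := sum_le hW s φ hφ
  have h2 : ∑ x ∈ s, r x = ∑ x ∈ s, finrank F (W (φ x)) :=
    le_antisymm (Finset.sum_le_sum hr) (h1.trans ht)
  refine ⟨fun x hx => ((Finset.sum_eq_sum_iff_of_le hr).1 h2 x hx).symm, fun i hi => ?_⟩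
  have h3 : (⨆ x ∈ s, W (φ x) : Submodule F V) = ⊤ := by
    apply Submodule.eq_top_of_finrank_eq
    rw [finrank_biSup hW s φ hφ]; omega
  have h4 : Disjoint (W i) (⨆ x ∈ s, W (φ x)) :=
    (hW i).mono_right (iSup₂_le fun x hx =>
      le_iSup₂_of_le (f := fun j (_ : j ≠ i) => W j) (φ x) (hi x hx) le_rfl)
  rw [h3] at h4
  exact disjoint_top.1 h4

end lat

/-- `f` maps `A` bijectively onto `B` -/
structure Bij {F V V' : Type*} [Field F] [AddCommGroup V] [Module F V] [AddCommGroup V']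
    [Module F V'] (f : V →ₗ[F] V') (A : Submodule F V) (B : Submodule F V') : Prop where
  inj : ∀ x ∈ A, f x = 0 → x = 0
  map : A.map f = B

section bij
variable {F V V' V'' : Type*} [Field F] [AddCommGroup V] [Module F V] [AddCommGroup V']
  [Module F V'] [AddCommGroup V''] [Module F V'']

theorem finrank_map_inj {f : V →ₗ[F] V'} {A : Submodule F V} (h : ∀ x ∈ A, f x = 0 → x = 0) :
    finrank F (A.map f) = finrank F A := by
  have h1 : Function.Injective (f.domRestrict A) := by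
    rw [injective_iff_map_eq_zero]
    intro x hx
    exact Subtype.ext (h x x.2 hx)
  rw [← LinearMap.finrank_range_of_inj h1, LinearMap.range_domRestrict]

theorem inj_of_finrank [FiniteDimensional F V] {f : V →ₗ[F] V'} {A : Submodule F V}
    (h : finrank F A ≤ finrank F (A.map f)) : ∀ x ∈ A, f x = 0 → x = 0 := by
  intro x hx h0
  have h1 := LinearMap.finrank_range_add_finrank_ker (f.domRestrict A)
  rw [LinearMap.range_domRestrict] at h1
  have h2 : LinearMap.ker (f.domRestrict A) = ⊥ := Submodule.finrank_eq_zero.1 (by omega)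
  have h3 : (⟨x, hx⟩ : A) ∈ LinearMap.ker (f.domRestrict A) := h0
  rw [h2] at h3
  exact congrArg Subtype.val ((Submodule.mem_bot F).1 h3)

theorem Bij.fr {f : V →ₗ[F] V'} {A : Submodule F V} {B : Submodule F V'} (h : Bij f A B) :
    finrank F A = finrank F B := by rw [← h.map, finrank_map_inj h.inj]

theorem Bij.of_inj [FiniteDimensional F V'] {f : V →ₗ[F] V'} {A : Submodule F V}
    {B : Submodule F V'} (h : ∀ x ∈ A, f x = 0 → x = 0) (hle : A.map f ≤ B)
    (hd : finrank F B ≤ finrank F A) : Bij f A B :=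
  ⟨h, Submodule.eq_of_le_of_finrank_le hle (by rwa [finrank_map_inj h])⟩

theorem Bij.of_map [FiniteDimensional F V] {f : V →ₗ[F] V'} {A : Submodule F V}
    {B : Submodule F V'} (h : A.map f = B) (hd : finrank F A ≤ finrank F B) : Bij f A B :=
  ⟨inj_of_finrank (by rwa [h]), h⟩

/-- a bijection that factors through a space of the same dimension -/
theorem Bij.split [FiniteDimensional F V'] {f : V →ₗ[F] V'} {g : V' →ₗ[F] V''} {k : V →ₗ[F] V''}
    {A : Submodule F V} {B : Submodule F V'} {C : Submodule F V''} {c : F} (hc : c ≠ 0)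
    (e : g ∘ₗ f = c • k) (h : Bij k A C) (h1 : A.map f ≤ B) :
    finrank F A ≤ finrank F B ∧ (finrank F B ≤ finrank F A → Bij f A B ∧ Bij g B C) := by
  have e' : ∀ x, g (f x) = c • k x := fun x => LinearMap.congr_fun e x
  have hi : ∀ x ∈ A, f x = 0 → x = 0 := by
    intro x hx h0
    have := e' x
    rw [h0, map_zero, eq_comm, smul_eq_zero] at this
    exact h.inj x hx (this.resolve_left hc)
  refine ⟨by rw [← finrank_map_inj hi]; exact Submodule.finrank_mono h1, fun hd => ?_⟩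
  have hb := Bij.of_inj hi h1 hd
  refine ⟨hb, Bij.of_map ?_ (by rw [← h.fr]; exact hd)⟩
  rw [← hb.map, ← Submodule.map_comp, e, Submodule.map_smul _ _ _ hc, h.map]

end bij

/-- a labelled graded space -/
structure LG (F V : Type*) [Field F] [AddCommGroup V] [Module F V] (n : ℕ) where
  W : ZMod n × ℚ → Submodule F V
  ind : iSupIndep W
  top : iSup W = ⊤

namespace LG
variable {F V V' V'' : Type*} [Field F] [AddCommGroup V] [Module F V] [AddCommGroup V']
  [Module F V'] [AddCommGroup V''] [Module F V''] {n n' n'' : ℕ}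

/-- the part of label `s` -/
def L (G : LG F V n) (s : ZMod n) : Submodule F V := ⨆ d, G.W (s, d)

/-- the character -/
noncomputable def c (G : LG F V n) (s : ZMod n) (d : ℚ) : ℕ := finrank F (G.W (s, d))

theorem L_eq (G : LG F V n) (s : ZMod n) :
    G.L s = ⨆ i ∈ {i : ZMod n × ℚ | i.1 = s}, G.W i := by
  refine le_antisymm (iSup_le fun d => le_iSup₂_of_le
    (f := fun i (_ : i ∈ {i : ZMod n × ℚ | i.1 = s}) => G.W i) (s, d) rfl le_rfl) ?_
  refine iSup₂_le ?_
  rintro ⟨t, d⟩ (rfl : t = s)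
  exact le_iSup (fun d => G.W (t, d)) d

theorem L_ind (G : LG F V n) : iSupIndep G.L := by
  have : G.L = fun s => ⨆ i ∈ {i : ZMod n × ℚ | i.1 = s}, G.W i := funext G.L_eq
  rw [this]
  refine ind_biSup G.ind _ fun x y hxy => Set.disjoint_left.2 fun i h1 h2 => hxy ?_
  exact (Eq.symm h1).trans h2

theorem W_le (G : LG F V n) (s : ZMod n) (d : ℚ) : G.W (s, d) ≤ G.L s :=
  le_iSup (fun d => G.W (s, d)) d

theorem L_top (G : LG F V n) : iSup G.L = ⊤ := by
  rw [eq_top_iff, ← G.top]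
  exact iSup_le fun i => (G.W_le i.1 i.2).trans (le_iSup G.L i.1)

theorem c_zero (G : LG F V n) {s : ZMod n} (h : G.L s = ⊥) (d : ℚ) : G.c s d = 0 := by
  have : G.W (s, d) = ⊥ := le_bot_iff.1 (h ▸ G.W_le s d)
  rw [c, this, finrank_bot]

/-- a map of class `(s, s')` and degree `δ` -/
structure Hom (G : LG F V n) (G' : LG F V' n') (f : V →ₗ[F] V') (s : ZMod n) (s' : ZMod n')
    (δ : ℚ) : Prop where
  map : ∀ d, ∀ x ∈ G.W (s, d), f x ∈ G'.W (s', d + δ)
  zero : ∀ t d, t ≠ s → ∀ x ∈ G.W (t, d), f x = 0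

variable {G : LG F V n} {G' : LG F V' n'} {G'' : LG F V'' n''} {f : V →ₗ[F] V'} {s : ZMod n}
  {s' : ZMod n'} {δ : ℚ}

theorem Hom.all (h : Hom G G' f s s' δ) (x : V) : f x ∈ G'.L s' := by
  have h1 : (⊤ : Submodule F V) ≤ (G'.L s').comap f := by
    rw [← G.top]
    refine iSup_le fun i x hx => ?_
    by_cases e : i.1 = s
    · exact G'.W_le _ _ (h.map i.2 x (e ▸ hx))
    · rw [Submodule.mem_comap, h.zero i.1 i.2 e x hx]; exact zero_mem _
  exact h1 trivial

theorem Hom.map_le (h : Hom G G' f s s' δ) (A : Submodule F V) : A.map f ≤ G'.L s' := by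
  rintro _ ⟨x, _, rfl⟩; exact h.all x

theorem Hom.zeroL (h : Hom G G' f s s' δ) {t : ZMod n} (ht : t ≠ s) {x : V} (hx : x ∈ G.L t) :
    f x = 0 := by
  have h1 : G.L t ≤ LinearMap.ker f := iSup_le fun d x hx => h.zero t d ht x hx
  exact h1 hx

theorem Hom.comp {g : V' →ₗ[F] V''} {s'' : ZMod n''} {δ' : ℚ} (h : Hom G G' f s s' δ)
    (h' : Hom G' G'' g s' s'' δ') : Hom G G'' (g ∘ₗ f) s s'' (δ + δ') :=
  ⟨fun d x hx => by rw [← add_assoc]; exact h'.map _ _ (h.map d x hx),
    fun t d ht x hx => by rw [LinearMap.comp_apply, h.zero t d ht x hx, map_zero]⟩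

theorem Hom.orth {g : V' →ₗ[F] V''} {t : ZMod n'} {s'' : ZMod n''} {δ' : ℚ}
    (h : Hom G G' f s s' δ) (h' : Hom G' G'' g t s'' δ') (ht : s' ≠ t) : g ∘ₗ f = 0 :=
  LinearMap.ext fun x => h'.zeroL ht (h.all x)

theorem Hom.c_eq (h : Hom G G' f s s' δ) (hb : Bij f (G.L s) (G'.L s')) (d : ℚ) :
    G.c s d = G'.c s' (d + δ) := by
  have h1 := eq_of_le_ind (f := fun d => (G.W (s, d)).map f) (g := fun d => G'.W (s', d + δ))
    (G'.ind.comp (f := fun d : ℚ => (s', d + δ)) fun a b e => by simpa using e)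
    (fun d => by rintro _ ⟨x, hx, rfl⟩; exact h.map d x hx) (by
      rw [← Submodule.map_iSup]
      exact iSup_le fun d => (G'.W_le _ _).trans hb.map.ge) d
  rw [c, c, ← h1, finrank_map_inj fun x hx => hb.inj x (G.W_le s d hx)]

/-- a bijection that is a sum of homogeneous maps with different target labels -/
theorem c_sum [FiniteDimensional F V'] (S : Finset ℤ) (D : ℤ → V →ₗ[F] V') (e : ℤ → ℚ)
    (hD : ∀ j ∈ S, Hom G G' (D j) j j (e j)) (hb : Function.Bijective (∑ j ∈ S, D j : V →ₗ[F] V'))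
    (hi : Set.InjOn (fun j : ℤ => (j : ZMod n')) S) (s : ZMod n) (d : ℚ) :
    G.c s d = ∑ j ∈ S.filter (fun j : ℤ => (j : ZMod n) = s), G'.c j (d + e j) := by
  classical
  let A : ZMod n × ℚ → Set (ZMod n' × ℚ) := fun a =>
    {b | ∃ j ∈ S, (j : ZMod n) = a.1 ∧ b = ((j : ZMod n'), a.2 + e j)}
  have hA : ∀ x y, x ≠ y → Disjoint (A x) (A y) := by
    intro x y hxy
    refine Set.disjoint_left.2 ?_
    rintro b ⟨j, hj, h1, rfl⟩ ⟨k, hk, h2, h3⟩
    obtain ⟨h4, h5⟩ := Prod.mk.inj h3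
    obtain rfl := hi hj hk h4
    exact hxy (Prod.ext (h1.symm.trans h2) (by simpa using h5))
  have h1 := eq_of_le_ind (f := fun a => (G.W a).map (∑ j ∈ S, D j : V →ₗ[F] V'))
    (ind_biSup G'.ind A hA) (fun a => by
      rintro _ ⟨x, hx, rfl⟩
      rw [LinearMap.sum_apply]
      refine Submodule.sum_mem _ fun j hj => ?_
      by_cases e1 : (j : ZMod n) = a.1
      · exact Submodule.mem_iSup_of_mem _ (Submodule.mem_iSup_of_mem ⟨j, hj, e1, rfl⟩
          ((hD j hj).map a.2 x (by rw [e1]; exact hx)))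
      · rw [(hD j hj).zero a.1 a.2 (Ne.symm e1) x hx]; exact zero_mem _) (by
      rw [← Submodule.map_iSup, G.top, Submodule.map_top, LinearMap.range_eq_top.2 hb.2]
      exact le_top) (s, d)
  have h2 : (⨆ b ∈ A (s, d), G'.W b) = ⨆ j ∈ S.filter (fun j : ℤ => (j : ZMod n) = s),
      G'.W ((j : ZMod n'), d + e j) := by
    refine le_antisymm (iSup₂_le ?_) (iSup₂_le fun j hj => ?_)
    · rintro b ⟨j, hj, h3, rfl⟩
      exact le_iSup₂_of_le (f := fun (j : ℤ) (_ : j ∈ S.filter (fun j : ℤ => (j : ZMod n) = s)) =>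
        G'.W ((j : ZMod n'), d + e j)) j (Finset.mem_filter.2 ⟨hj, h3⟩) le_rfl
    · exact le_iSup₂_of_le (f := fun b (_ : b ∈ A (s, d)) => G'.W b) _
        ⟨j, (Finset.mem_filter.1 hj).1, (Finset.mem_filter.1 hj).2, rfl⟩ le_rfl
  rw [c, ← finrank_map_inj (f := (∑ j ∈ S, D j : V →ₗ[F] V')) fun x _ h0 =>
    (injective_iff_map_eq_zero _).1 hb.1 x h0, h1, h2,
    finrank_biSup G'.ind _ (fun j : ℤ => ((j : ZMod n'), d + e j)) fun a ha b hb e1 =>
      hi (Finset.mem_filter.1 ha).1 (Finset.mem_filter.1 hb).1 (Prod.mk.inj e1).1]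
  rfl

/-- in the same situation every summand is onto its label, the other labels vanish -/
theorem onto_sum (S : Finset ℤ) (D : ℤ → V →ₗ[F] V')
    (hD : ∀ j ∈ S, ∀ x, D j x ∈ G'.L j) (hb : Function.Surjective (∑ j ∈ S, D j : V →ₗ[F] V'))
    (hi : Set.InjOn (fun j : ℤ => (j : ZMod n')) S) :
    (∀ j ∈ S, LinearMap.range (D j) = G'.L j) ∧
      ∀ t : ZMod n', (∀ j ∈ S, (j : ZMod n') ≠ t) → G'.L t = ⊥ := by
  classical
  let f : ZMod n' → Submodule F V' := fun t =>
    ⨆ j ∈ S.filter (fun j : ℤ => (j : ZMod n') = t), LinearMap.range (D j)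
  have h1 := eq_of_le_ind (f := f) G'.L_ind (fun t => iSup₂_le fun j hj => by
      rintro _ ⟨x, rfl⟩
      exact (Finset.mem_filter.1 hj).2 ▸ hD j (Finset.mem_filter.1 hj).1 x) (by
      intro y _
      obtain ⟨x, rfl⟩ := hb y
      rw [LinearMap.sum_apply]
      refine Submodule.sum_mem _ fun j hj => Submodule.mem_iSup_of_mem (j : ZMod n') ?_
      exact Submodule.mem_iSup_of_mem j (Submodule.mem_iSup_of_mem
        (Finset.mem_filter.2 ⟨hj, rfl⟩) ⟨x, rfl⟩))
  refine ⟨fun j hj => ?_, fun t ht => ?_⟩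
  · rw [← h1]
    refine le_antisymm (le_iSup₂_of_le (f := fun (k : ℤ)
      (_ : k ∈ S.filter (fun k : ℤ => (k : ZMod n') = j)) => LinearMap.range (D k)) j
      (Finset.mem_filter.2 ⟨hj, rfl⟩) le_rfl) (iSup₂_le fun k hk => ?_)
    obtain rfl := hi (Finset.mem_filter.1 hk).1 hj (Finset.mem_filter.1 hk).2
    exact le_rfl
  · rw [← h1, eq_bot_iff]
    exact iSup₂_le fun k hk => (ht k (Finset.mem_filter.1 hk).1 (Finset.mem_filter.1 hk).2).elim

end LG

end Frb23
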