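import Mathlib

/-! Frobenius lemma for parallel shear handles, at the level of a ring of characteristic two.
`A i a` is the class `a` component of handle `i`; `P i` is the order of the label group at level
`i`.  The product of `2 ^ k` total maps is the sum of the constant patterns. -/

namespace Frb23

variable {E : Type*} [Ring E]

/-- the constant pattern `a` on the handles `i, …, i + n - 1` -/
def B (A : ℕ → ℤ → E) (i : ℕ) : ℕ → ℤ → E
  | 0, _ => 1
  | n + 1, a => A (i + n) a * B A i n a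

/-- product of `T (i + n - 1) * … * T i` -/
def Pr (T : ℕ → E) (i : ℕ) : ℕ → E
  | 0 => 1
  | n + 1 => T (i + n) * Pr T i n

theorem Pr_add (T : ℕ → E) (i n : ℕ) : ∀ m, Pr T i (n + m) = Pr T (i + n) m * Pr T i n
  | 0 => by simp [Pr]
  | m + 1 => by
    rw [← add_assoc, Pr, Pr, Pr_add T i n m, mul_assoc, add_assoc]

theorem B_eq (A : ℕ → ℤ → E) (i : ℕ) (a : ℤ) : ∀ n, B A i n a = Pr (fun k => A k a) i n
  | 0 => rfl
  | n + 1 => by rw [B, Pr, B_eq A i a n]

theorem B_add (A : ℕ → ℤ → E) (i n m : ℕ) (a : ℤ) :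
    B A i (n + m) a = B A (i + n) m a * B A i n a := by
  simp only [B_eq, Pr_add]

theorem B_one (A : ℕ → ℤ → E) (i : ℕ) (a : ℤ) : B A i 1 a = A i a := by simp [B]

theorem B_succ' (A : ℕ → ℤ → E) (i n : ℕ) (a : ℤ) :
    B A i (n + 1) a = B A (i + 1) n a * A i a := by
  rw [add_comm n 1, B_add, B_one]

/-- the relations between the class components of consecutive handles -/
structure Rel (A : ℕ → ℤ → E) (P : ℕ → ℤ) (q : ℤ) : Prop where
  step : ∀ i, P (i + 1) = P i + q
  ne : ∀ i, P (i + 1) = 0 → ∀ a, A (i + 1) a = 0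
  orth : ∀ i a b, ¬ P (i + 1) ∣ b - a → A (i + 1) b * A i a = 0
  swap : ∀ i a d, A (i + 1) (a + P (i + 1) * d) * A i a
    = A (i + 1) (a - q * d) * A i (a + P i * d)

variable {A : ℕ → ℤ → E} {P : ℕ → ℤ} {q : ℤ}

theorem Rel.P_add (h : Rel A P q) (i : ℕ) : ∀ n : ℕ, P (i + n) = P i + n * q
  | 0 => by simp
  | n + 1 => by rw [← add_assoc, h.step, h.P_add i n]; push_cast; ring

theorem Rel.swap1 (h : Rel A P q) (i : ℕ) (a d : ℤ) : ∀ n : ℕ,
    A (i + n) (a + P (i + n) * d) * B A i n a = B A (i + 1) n (a - q * d) * A i (a + P i * d)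
  | 0 => by simp [B]
  | n + 1 => by
    rw [B, B, ← mul_assoc, ← add_assoc, h.swap, mul_assoc, h.swap1 i a d n, ← mul_assoc,
      add_right_comm i 1 n]

theorem Rel.swapB (h : Rel A P q) (i n : ℕ) (a d : ℤ) : ∀ m : ℕ,
    B A (i + n) m (a + P (i + n) * d) * B A i n a
      = B A (i + m) n (a - m * q * d) * B A i m (a + P i * d)
  | 0 => by simp [B]
  | m + 1 => by
    have e1 : a + P (i + n) * d = (a - m * q * d) + P (i + m + n) * d := by
      rw [add_right_comm, h.P_add (i + n) m]; ring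
    have e2 : a - m * q * d + P (i + m) * d = a + P i * d := by
      rw [h.P_add i m]; ring
    have e3 : a - m * q * d - q * d = a - ((m + 1 : ℕ) : ℤ) * q * d := by push_cast; ring
    rw [B, mul_assoc, h.swapB i n a d m, ← mul_assoc, add_right_comm i n m]
    conv_lhs => rw [e1]
    rw [h.swap1 (i + m) _ d n, e2, e3, B, mul_assoc, add_assoc]

theorem Rel.orthB (h : Rel A P q) (i n m : ℕ) (a b : ℤ) (hd : ¬ P (i + (n + 1)) ∣ b - a) :
    B A (i + (n + 1)) (m + 1) b * B A i (n + 1) a = 0 := by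
  rw [B_succ', B, mul_assoc, ← mul_assoc (A _ b), ← add_assoc, h.orth _ _ _ (by rwa [add_assoc])]
  simp

theorem B_ne (A : ℕ → ℤ → E) (i n k : ℕ) (a : ℤ) (hk : k < n) (h : A (i + k) a = 0) :
    B A i n a = 0 := by
  obtain ⟨m, rfl⟩ := Nat.exists_eq_add_of_lt hk
  rw [show k + m + 1 = (k + 1) + m by ring, B_add, B, h]
  simp

/-- doubling step -/
theorem Rel.double (h : Rel A P q) (h2 : ∀ x : E, x + x = 0) (S : Finset ℤ) (i n : ℕ)
    (hS : ∀ k, k < (n + 1) + (n + 1) → ∀ a, a ∉ S → A (i + k) a = 0) :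
    (∑ b ∈ S, B A (i + (n + 1)) (n + 1) b) * (∑ a ∈ S, B A i (n + 1) a)
      = ∑ a ∈ S, B A i ((n + 1) + (n + 1)) a := by
  classical
  set N := n + 1 with hN
  by_cases hP : P (i + N) = 0
  · have h0 := h.ne (i + n) hP
    rw [Finset.sum_eq_zero fun b _ => B_ne A (i + N) N 0 b (by omega) (h0 b),
      Finset.sum_eq_zero fun b _ => B_ne A i (N + N) N b (by omega) (h0 b), zero_mul]
  let t : ℤ × ℤ → E := fun x => B A (i + N) N x.2 * B A i N x.1
  have h1 : (∑ b ∈ S, B A (i + N) N b) * (∑ a ∈ S, B A i N a) = ∑ x ∈ S ×ˢ S, t x := by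
    rw [Finset.sum_mul_sum, Finset.sum_product, Finset.sum_comm]
  have hmem : ∀ x, t x ≠ 0 → x ∈ S ×ˢ S := by
    intro x hx
    rw [Finset.mem_product]
    constructor
    · by_contra hc
      exact hx (by simp only [t]; rw [B_ne A i N 0 x.1 (by omega) (hS 0 (by omega) _ hc)]; simp)
    · by_contra hc
      exact hx (by
        simp only [t]
        rw [B_ne A (i + N) N 0 x.2 (by omega) (by simpa using hS N (by omega) _ hc)]; simp)
  have hdv : ∀ x, t x ≠ 0 → P (i + N) ∣ x.2 - x.1 := by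
    intro x hx
    by_contra hc
    exact hx (h.orthB i n n x.1 x.2 hc)
  let g : ℤ × ℤ → ℤ × ℤ := fun x =>
    (x.1 + P i * ((x.2 - x.1) / P (i + N)), x.1 - N * q * ((x.2 - x.1) / P (i + N)))
  have hg : ∀ x, t x ≠ 0 → ∃ d, x.2 = x.1 + P (i + N) * d ∧
      g x = (x.1 + P i * d, x.1 - N * q * d) := by
    intro x hx
    obtain ⟨d, hd⟩ := hdv x hx
    refine ⟨d, by linarith, ?_⟩
    simp only [g]; rw [hd, Int.mul_ediv_cancel_left _ hP]
  have hgt : ∀ x, t x ≠ 0 → t (g x) = t x := by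
    intro x hx
    obtain ⟨d, hd, e⟩ := hg x hx
    rw [e]; simp only [t]; rw [hd, h.swapB]
  rw [h1, ← Finset.sum_filter_add_sum_filter_not _ (fun x : ℤ × ℤ => x.1 = x.2)]
  have h3 : ∑ x ∈ (S ×ˢ S).filter (fun x : ℤ × ℤ => x.1 = x.2), t x
      = ∑ a ∈ S, B A i (N + N) a := by
    symm
    refine Finset.sum_bij (fun a _ => (a, a)) ?_ ?_ ?_ ?_
    · intro a ha; simp [ha]
    · intro a _ b _ e; exact (Prod.mk.inj e).1
    · rintro ⟨a, b⟩ hx
      simp only [Finset.mem_filter, Finset.mem_product] at hx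
      obtain ⟨⟨ha, _⟩, rfl⟩ := hx
      exact ⟨a, ha, rfl⟩
    · intro a _; exact B_add A i N N a
  have h4 : ∑ x ∈ (S ×ˢ S).filter (fun x : ℤ × ℤ => ¬ x.1 = x.2), t x = 0 := by
    rw [← Finset.sum_filter_ne_zero]
    have hPe : P (i + N) = P i + N * q := h.P_add i N
    refine Finset.sum_involution (fun x _ => g x) ?_ ?_ ?_ ?_
    · intro x hx
      rw [hgt x (Finset.mem_filter.1 hx).2]; exact h2 _
    · intro x hx _ e
      obtain ⟨hx1, hx2⟩ := Finset.mem_filter.1 hx
      obtain ⟨d, hd, e'⟩ := hg x hx2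
      have hne := (Finset.mem_filter.1 hx1).2
      rw [e'] at e
      have e1 := congrArg Prod.fst e
      have e2 := congrArg Prod.snd e
      simp only at e1 e2
      have : P (i + N) * d = 0 := by
        have : 2 * (P (i + N) * d) = 0 := by rw [hPe] at hd ⊢; linarith
        linarith
      exact hne (by rw [hd, this]; simp)
    · intro x hx
      obtain ⟨hx1, hx2⟩ := Finset.mem_filter.1 hx
      have hne := (Finset.mem_filter.1 hx1).2
      obtain ⟨d, hd, e'⟩ := hg x hx2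
      have h5 : t (g x) ≠ 0 := by rwa [hgt x hx2]
      refine Finset.mem_filter.2 ⟨Finset.mem_filter.2 ⟨hmem _ h5, ?_⟩, h5⟩
      rw [e']; simp only
      intro e
      have : P (i + N) * d = 0 := by rw [hPe]; linarith
      exact hne (by rw [hd, this]; simp)
    · intro x hx
      obtain ⟨_, hx2⟩ := Finset.mem_filter.1 hx
      obtain ⟨d, hd, e'⟩ := hg x hx2
      have e4 : (x.1 - N * q * d - (x.1 + P i * d)) / P (i + N) = -d := by
        rw [show x.1 - N * q * d - (x.1 + P i * d) = P (i + N) * (-d) by rw [hPe]; ring,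
          Int.mul_ediv_cancel_left _ hP]
      rw [e']; simp only [g]; rw [e4]
      ext
      · simp
      · simp only; rw [hd, hPe]; ring
  rw [h3, h4, add_zero]

/-- Frobenius lemma -/
theorem Rel.frob (h : Rel A P q) (h2 : ∀ x : E, x + x = 0) (S : Finset ℤ) : ∀ (k i : ℕ),
    (∀ l, l < 2 ^ k → ∀ a, a ∉ S → A (i + l) a = 0) →
    Pr (fun l => ∑ a ∈ S, A l a) i (2 ^ k) = ∑ a ∈ S, B A i (2 ^ k) a
  | 0, i, _ => by simp [Pr, B]
  | k + 1, i, hS => by
    obtain ⟨n, hn⟩ : ∃ n, 2 ^ k = n + 1 := ⟨2 ^ k - 1, by have := Nat.one_le_two_pow (n := k); omega⟩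
    have e : 2 ^ (k + 1) = 2 ^ k + 2 ^ k := by ring
    rw [e] at hS ⊢
    rw [Pr_add, h.frob h2 S k i (fun l hl => hS l (by omega)),
      h.frob h2 S k (i + 2 ^ k) (fun l hl => by rw [add_assoc]; exact hS _ (by omega))]
    rw [hn] at hS ⊢
    exact h.double h2 S i n hS

end Frb23
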