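import Crest.Agent.X212.Frb23.Ring
import Crest.Agent.X212.Frb23.LG

/-! Chains of shear handles on labelled graded spaces. -/

namespace Frb23

open Module

variable {F : Type*} [Field F] {H : ℕ → Type*} [∀ i, AddCommGroup (H i)] [∀ i, Module F (H i)]

/-- composition of the first `n` maps -/
def D (T : ∀ i, H i →ₗ[F] H (i + 1)) : ∀ n, H 0 →ₗ[F] H n
  | 0 => LinearMap.id
  | n + 1 => T n ∘ₗ D T n

theorem D_fac (T : ∀ i, H i →ₗ[F] H (i + 1)) {i n : ℕ} (h : i ≤ n) :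
    ∃ X : H i →ₗ[F] H n, D T n = X ∘ₗ D T i := by
  induction n, h using Nat.le_induction with
  | base => exact ⟨LinearMap.id, rfl⟩
  | succ n _ ih => obtain ⟨X, e⟩ := ih; exact ⟨T n ∘ₗ X, by rw [D, e]; rfl⟩

theorem D_bij (T : ∀ i, H i →ₗ[F] H (i + 1)) : ∀ n, (∀ i < n, Function.Bijective (T i)) →
    Function.Bijective (D T n)
  | 0, _ => Function.bijective_id
  | n + 1, h => (h n (by omega)).comp (D_bij T n fun i hi => h i (by omega))

/-- the maps of a chain of length `N` as endomorphisms of the product -/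
def emb (N : ℕ) (T : ∀ i, H i →ₗ[F] H (i + 1)) (l : ℕ) : Module.End F (∀ i, H i) :=
  if l < N then LinearMap.single F H (l + 1) ∘ₗ T l ∘ₗ LinearMap.proj l else 0

theorem Pr_emb (N : ℕ) (T : ∀ i, H i →ₗ[F] H (i + 1)) (x : H 0) : ∀ n ≤ N,
    Pr (emb N T) 0 n (Pi.single 0 x) = Pi.single n (D T n x)
  | 0, _ => rfl
  | n + 1, h => by
    rw [Pr, Module.End.mul_apply, Pr_emb N T x n (by omega), zero_add, emb, if_pos (by omega)]
    simp [D]

theorem emb_mul (N : ℕ) (T T' : ∀ i, H i →ₗ[F] H (i + 1)) (l : ℕ) :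
    emb N T (l + 1) * emb N T' l = if l + 1 < N then
      LinearMap.single F H (l + 2) ∘ₗ (T (l + 1) ∘ₗ T' l) ∘ₗ LinearMap.proj l else 0 := by
  by_cases h : l + 1 < N
  · rw [emb, emb, if_pos h, if_pos h, if_pos (by omega)]
    ext x : 1
    simp
  · rw [emb, if_neg h, if_neg h, zero_mul]

/-- a chain of `N` shear handles -/
structure Ch (N : ℕ) (P : ℕ → ℤ) (q : ℤ) (G : ∀ i, LG F (H i) (P i).natAbs)
    (A : ∀ i, ℤ → H i →ₗ[F] H (i + 1)) (ψ : ℕ → ℤ → ℚ) : Prop where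
  two : (2 : F) = 0
  step : ∀ i, P (i + 1) = P i + q
  ne : ∀ i, i + 1 < N → P (i + 1) ≠ 0
  hom : ∀ i < N, ∀ j : ℤ, LG.Hom (G i) (G (i + 1)) (A i j) j j (ψ (i + 1) j - ψ i j)
  fin : ∀ i < N, (Function.support (A i)).Finite
  bij : ∀ i < N, Function.Bijective (∑ᶠ j, A i j : H i →ₗ[F] H (i + 1))
  swap : ∀ i, i + 1 < N → ∀ a d, A (i + 1) (a + P (i + 1) * d) ∘ₗ A i a
    = A (i + 1) (a - q * d) ∘ₗ A i (a + P i * d)

theorem cast_eq_iff (p a b : ℤ) : ((a : ZMod p.natAbs) = b) ↔ p ∣ b - a := by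
  rw [ZMod.intCast_eq_intCast_iff_dvd_sub, Int.natAbs_dvd]

variable {N : ℕ} {P : ℕ → ℤ} {q : ℤ} {G : ∀ i, LG F (H i) (P i).natAbs}
  {A : ∀ i, ℤ → H i →ₗ[F] H (i + 1)} {ψ : ℕ → ℤ → ℚ}

theorem Ch.rel (h : Ch N P q G A ψ) : Rel (fun l a => emb N (fun i => A i a) l) P q where
  step := h.step
  ne := fun i h0 a => by
    rw [emb, if_neg fun hl => h.ne i hl h0]
  orth := fun i a b hd => by
    rw [emb_mul]
    split_ifs with hl
    · rw [(h.hom i (by omega) a).orth (h.hom (i + 1) hl b) (mt (cast_eq_iff _ _ _).1 hd)]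
      simp
    · rfl
  swap := fun i a d => by
    rw [emb_mul, emb_mul]
    split_ifs with hl
    · rw [h.swap i hl]
    · rfl

theorem D_zero (A : ∀ i, ℤ → H i →ₗ[F] H (i + 1)) (a : ℤ) (h : A 0 a = 0) {n : ℕ} (hn : 0 < n) :
    D (fun i => A i a) n = 0 := by
  obtain ⟨X, e⟩ := D_fac (fun i => A i a) (show 1 ≤ n from hn)
  rw [e, D, h]; simp

/-- Frobenius lemma for a chain -/
theorem Ch.frob {k : ℕ} (h : Ch (2 ^ k) P q G A ψ) (S : Finset ℤ)
    (hS : ∀ a, a ∉ S → A 0 a = 0) :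
    D (fun i => ∑ᶠ j, A i j) (2 ^ k) = ∑ j ∈ S, D (fun i => A i j) (2 ^ k) := by
  classical
  have hf : (⋃ l ∈ Set.Iio (2 ^ k), Function.support (A l)).Finite :=
    (Set.finite_Iio _).biUnion fun l hl => h.fin l hl
  let S' := S ∪ hf.toFinset
  have hS' : ∀ l < 2 ^ k, ∀ a, a ∉ S' → A l a = 0 := by
    intro l hl a ha
    by_contra hc
    exact ha (Finset.mem_union_right _ (hf.mem_toFinset.2 (Set.mem_biUnion hl hc)))
  have h1 := h.rel.frob (fun x => by rw [← two_smul F x, h.two, zero_smul]) S' k 0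
    (fun l hl a ha => by rw [zero_add, emb, if_pos hl, hS' l hl a ha]; simp)
  have h2 : (fun l => ∑ a ∈ S', emb (2 ^ k) (fun i => A i a) l)
      = emb (2 ^ k) (fun i => ∑ᶠ j, A i j) := by
    funext l
    by_cases hl : l < 2 ^ k
    · simp only [emb, if_pos hl]
      rw [finsum_eq_sum_of_support_subset (s := S') _ fun a ha => by
        by_contra hc; exact ha (hS' l hl a hc)]
      ext x : 1
      simp only [LinearMap.sum_apply, LinearMap.comp_apply, map_sum]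
    · simp [emb, if_neg hl]
  rw [h2] at h1
  have h3 : ∑ j ∈ S, D (fun i => A i j) (2 ^ k) = ∑ j ∈ S', D (fun i => A i j) (2 ^ k) :=
    Finset.sum_subset Finset.subset_union_left fun a _ ha =>
      D_zero A a (hS a ha) (by positivity)
  rw [h3]
  ext x
  have h4 := congrFun (LinearMap.congr_fun h1 (Pi.single 0 x)) (2 ^ k)
  rw [Pr_emb _ _ x _ le_rfl, LinearMap.sum_apply, Finset.sum_apply] at h4
  simp only [B_eq] at h4
  rw [LinearMap.sum_apply]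
  rw [Pi.single_eq_same] at h4
  rw [h4]
  refine Finset.sum_congr rfl fun a _ => ?_
  rw [Pr_emb _ _ x _ le_rfl, Pi.single_eq_same]

theorem Ch.homD (h : Ch N P q G A ψ) (j : ℤ) : ∀ n, n + 1 ≤ N →
    LG.Hom (G 0) (G (n + 1)) (D (fun i => A i j) (n + 1)) j j (ψ (n + 1) j - ψ 0 j)
  | 0, hn => h.hom 0 hn j
  | n + 1, hn => by
    have := (h.homD j n (by omega)).comp (h.hom (n + 1) hn j)
    rwa [show ψ (n + 1) j - ψ 0 j + (ψ (n + 1 + 1) j - ψ (n + 1) j)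
      = ψ (n + 1 + 1) j - ψ 0 j by ring] at this

theorem Ch.homD' (h : Ch N P q G A ψ) (j : ℤ) {n : ℕ} (h0 : 0 < n) (hn : n ≤ N) :
    LG.Hom (G 0) (G n) (D (fun i => A i j) n) j j (ψ n j - ψ 0 j) := by
  obtain ⟨m, rfl⟩ := Nat.exists_eq_succ_of_ne_zero h0.ne'
  exact h.homD j m hn

theorem Ch.bijD {k : ℕ} (h : Ch (2 ^ k) P q G A ψ) (S : Finset ℤ) (hS : ∀ a, a ∉ S → A 0 a = 0) :
    Function.Bijective (∑ j ∈ S, D (fun i => A i j) (2 ^ k) : H 0 →ₗ[F] H (2 ^ k)) := by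
  rw [← h.frob S hS]; exact D_bij _ _ h.bij

variable [∀ i, FiniteDimensional F (H i)]

/-- the character of the start is read off at the end -/
theorem Ch.c_sum {k : ℕ} (h : Ch (2 ^ k) P q G A ψ) (S : Finset ℤ) (hS : ∀ a, a ∉ S → A 0 a = 0)
    (hi : Set.InjOn (fun j : ℤ => (j : ZMod (P (2 ^ k)).natAbs)) S) (s : ZMod (P 0).natAbs)
    (d : ℚ) : (G 0).c s d = ∑ j ∈ S.filter (fun j : ℤ => (j : ZMod (P 0).natAbs) = s),
      (G (2 ^ k)).c j (d + (ψ (2 ^ k) j - ψ 0 j)) :=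
  LG.c_sum S _ _ (fun j _ => h.homD' j (by positivity) le_rfl) (h.bijD S hS) hi s d

omit [∀ i, FiniteDimensional F (H i)] in
theorem Ch.fr (h : Ch N P q G A ψ) {n : ℕ} (hn : n ≤ N) : finrank F (H 0) = finrank F (H n) :=
  (LinearEquiv.ofBijective _ (D_bij _ n fun i hi => h.bij i (by omega))).finrank_eq

/-- where the alive labels are distinct, they carry everything -/
theorem Ch.lev {k : ℕ} (h : Ch (2 ^ k) P q G A ψ) (S : Finset ℤ) (hS : ∀ a, a ∉ S → A 0 a = 0)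
    (hi : Set.InjOn (fun j : ℤ => (j : ZMod (P (2 ^ k)).natAbs)) S) {i : ℕ} (h0 : 0 < i)
    (hk : i ≤ 2 ^ k) (hii : Set.InjOn (fun j : ℤ => (j : ZMod (P i).natAbs)) S) :
    (∀ j ∈ S, finrank F ((G i).L j) = finrank F ((G (2 ^ k)).L j) ∧
      ∀ X : H i →ₗ[F] H (2 ^ k), D (fun i => A i j) (2 ^ k) = X ∘ₗ D (fun i => A i j) i →
        ∀ x ∈ (G i).L j, X x = 0 → x = 0) ∧
      ∑ j ∈ S, finrank F ((G i).L j) = finrank F (H i) := by
  have hp : 0 < 2 ^ k := by positivity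
  obtain ⟨h1, h2⟩ := LG.onto_sum (G' := G (2 ^ k)) S _
    (fun j _ => (h.homD' j hp le_rfl).all) (h.bijD S hS).2 hi
  have h3 : ∀ j ∈ S, ∀ X : H i →ₗ[F] H (2 ^ k),
      D (fun i => A i j) (2 ^ k) = X ∘ₗ D (fun i => A i j) i →
      finrank F ((G (2 ^ k)).L j) ≤ finrank F (((G i).L j).map X) := by
    intro j hj X e
    refine Submodule.finrank_mono ?_
    rw [← h1 j hj, e]
    rintro _ ⟨x, rfl⟩
    exact ⟨_, (h.homD' j h0 hk).all x, rfl⟩
  have h4 : finrank F (H (2 ^ k)) ≤ ∑ j ∈ S, finrank F ((G (2 ^ k)).L j) := by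
    rw [← finrank_biSup (G (2 ^ k)).L_ind S _ hi, ← finrank_top F (H (2 ^ k))]
    refine Submodule.finrank_mono ?_
    rw [← (G (2 ^ k)).L_top]
    refine iSup_le fun t => ?_
    by_cases ht : ∀ j ∈ S, (j : ZMod (P (2 ^ k)).natAbs) ≠ t
    · rw [h2 t ht]; exact bot_le
    · push Not at ht
      obtain ⟨j, hj, rfl⟩ := ht
      exact le_iSup₂_of_le (f := fun (j : ℤ) (_ : j ∈ S) => (G (2 ^ k)).L j) j hj le_rfl
  have h5 : finrank F (H i) = finrank F (H (2 ^ k)) := (h.fr hk).symm.trans (h.fr le_rfl)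
  obtain ⟨h6, -⟩ := eq_of_sum (G i).L_ind S _ hii (fun j => finrank F ((G (2 ^ k)).L j))
    (fun j hj => by
      obtain ⟨X, e⟩ := D_fac (fun i => A i j) hk
      exact (h3 j hj X e).trans (Submodule.finrank_map_le _ _)) (h5 ▸ h4)
  refine ⟨fun j hj => ⟨h6 j hj, fun X e => inj_of_finrank ((h6 j hj).le.trans (h3 j hj X e))⟩, ?_⟩
  refine le_antisymm (sum_le (G i).L_ind S _ hii) ?_
  rw [Finset.sum_congr rfl h6, h5]; exact h4

/-- the diagonal classes are bijections far out -/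
theorem Ch.diag {k : ℕ} (h : Ch (2 ^ k) P q G A ψ) (S : Finset ℤ) (hS : ∀ a, a ∉ S → A 0 a = 0)
    (hi : Set.InjOn (fun j : ℤ => (j : ZMod (P (2 ^ k)).natAbs)) S) {i : ℕ} (h0 : 0 < i)
    (hk : i < 2 ^ k) (hii : Set.InjOn (fun j : ℤ => (j : ZMod (P i).natAbs)) S)
    (hii' : Set.InjOn (fun j : ℤ => (j : ZMod (P (i + 1)).natAbs)) S) {j : ℤ} (hj : j ∈ S) :
    Bij (A i j) ((G i).L j) ((G (i + 1)).L j) := by
  obtain ⟨h1, h2⟩ := (h.lev S hS hi h0 hk.le hii).1 j hj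
  obtain ⟨h3, -⟩ := (h.lev S hS hi (by omega) hk hii').1 j hj
  obtain ⟨X, e⟩ := D_fac (fun i => A i j) (show i + 1 ≤ 2 ^ k from hk)
  refine Bij.of_inj (fun x hx h4 => h2 (X ∘ₗ A i j) (by rw [e]; rfl) x hx (by simp [h4]))
    ((h.hom i hk j).map_le _) (by rw [h1, h3])

end Frb23
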